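import Mathlib

/-! Reversible lazy chains on a finite set: entropy dissipation and Doeblin contraction. -/

set_option linter.unusedSectionVars false
set_option linter.unusedSimpArgs false

namespace Vale.Agent.P249

open Finset

section Chain

variable {ι : Type*} [Fintype ι] [DecidableEq ι]

/-- Pointwise inequality behind the entropy estimate. -/
lemma ent_pointwise {t m : ℝ} (ht : 0 ≤ t) (hm : 0 < m) :
    2 * t - 2 * (Real.sqrt t * Real.sqrt m) ≤ t * Real.log t - t * Real.log m := by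
  rcases ht.eq_or_lt with rfl | ht
  · simp
  have hst : 0 < Real.sqrt t := Real.sqrt_pos.2 ht
  have hsm : 0 < Real.sqrt m := Real.sqrt_pos.2 hm
  have h1 : Real.log t = 2 * Real.log (Real.sqrt t) := by
    rw [Real.log_sqrt ht.le]; ring
  have h2 : Real.log m = 2 * Real.log (Real.sqrt m) := by
    rw [Real.log_sqrt hm.le]; ring
  have h3 : Real.log (Real.sqrt m / Real.sqrt t) ≤ Real.sqrt m / Real.sqrt t - 1 :=
    Real.log_le_sub_one_of_pos (div_pos hsm hst)
  rw [Real.log_div hsm.ne' hst.ne'] at h3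
  have h4 : t = Real.sqrt t * Real.sqrt t := (Real.mul_self_sqrt ht.le).symm
  have h5 : t * (Real.sqrt m / Real.sqrt t) = Real.sqrt t * Real.sqrt m := by
    field_simp
    rw [Real.sq_sqrt ht.le]
  have h6 := mul_le_mul_of_nonneg_left h3 ht.le
  rw [h1, h2]
  nlinarith [h6, h5]

/-- Jensen gap for `t log t` under one row of a lazy chain. -/
lemma ent_row (w : ι → ℝ) (hw : ∀ y, 0 ≤ w y) (hsum : ∑ y, w y = 1) (x : ι)
    (hx : 1 / 2 ≤ w x) (h : ι → ℝ) (hh : ∀ y, 0 ≤ h y) :
    (1 / 3) * ∑ y, w y * (Real.sqrt (h y) - Real.sqrt (h x)) ^ 2 ≤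
      ∑ y, w y * (h y * Real.log (h y)) - (∑ y, w y * h y) * Real.log (∑ y, w y * h y) := by
  set m := ∑ y, w y * h y with hm
  set s : ι → ℝ := fun y => Real.sqrt (h y) with hs
  set μ := ∑ y, w y * s y with hμ
  have hss : ∀ y, s y ^ 2 = h y := fun y => Real.sq_sqrt (hh y)
  have hm0 : 0 ≤ m := sum_nonneg fun y _ => mul_nonneg (hw y) (hh y)
  have hexp : ∀ c : ℝ, ∑ y, w y * (s y - c) ^ 2 = m - 2 * c * μ + c ^ 2 := by
    intro c
    have : ∀ y, w y * (s y - c) ^ 2 = w y * h y - 2 * c * (w y * s y) + c ^ 2 * w y := by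
      intro y; rw [← hss y]; ring
    simp_rw [this]
    rw [sum_add_distrib, sum_sub_distrib, ← mul_sum, ← mul_sum, hsum]
    ring
  have hvar : w x * (s x - μ) ^ 2 ≤ m - μ ^ 2 := by
    have h1 := hexp μ
    have h2 : w x * (s x - μ) ^ 2 ≤ ∑ y, w y * (s y - μ) ^ 2 :=
      single_le_sum (f := fun y => w y * (s y - μ) ^ 2)
        (fun y _ => mul_nonneg (hw y) (sq_nonneg _)) (mem_univ x)
    nlinarith
  have hleft : (1 / 3) * ∑ y, w y * (s y - s x) ^ 2 ≤ m - μ ^ 2 := by
    rw [hexp]
    have : (1 / 2) * (s x - μ) ^ 2 ≤ w x * (s x - μ) ^ 2 :=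
      mul_le_mul_of_nonneg_right hx (sq_nonneg _)
    nlinarith
  refine hleft.trans ?_
  rcases hm0.eq_or_lt with hm0 | hm0
  · have hz : ∀ y, w y * h y = 0 := by
      intro y
      have := (sum_eq_zero_iff_of_nonneg (fun y _ => mul_nonneg (hw y) (hh y))).1 hm0.symm y
        (mem_univ y)
      exact this
    have : ∑ y, w y * (h y * Real.log (h y)) = 0 := by
      refine sum_eq_zero fun y _ => ?_
      rw [← mul_assoc, hz y, zero_mul]
    rw [this, ← hm0]
    nlinarith [sq_nonneg μ]
  · have h1 : ∑ y, w y * (2 * h y - 2 * (s y * Real.sqrt m)) ≤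
        ∑ y, w y * (h y * Real.log (h y) - h y * Real.log m) :=
      sum_le_sum fun y _ => mul_le_mul_of_nonneg_left (ent_pointwise (hh y) hm0) (hw y)
    have h2 : ∑ y, w y * (2 * h y - 2 * (s y * Real.sqrt m)) = 2 * m - 2 * Real.sqrt m * μ := by
      have : ∀ y, w y * (2 * h y - 2 * (s y * Real.sqrt m)) =
          2 * (w y * h y) - 2 * Real.sqrt m * (w y * s y) := by intro y; ring
      simp_rw [this]
      rw [sum_sub_distrib, ← mul_sum, ← mul_sum]
    have h3 : ∑ y, w y * (h y * Real.log (h y) - h y * Real.log m) =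
        ∑ y, w y * (h y * Real.log (h y)) - m * Real.log m := by
      have : ∀ y, w y * (h y * Real.log (h y) - h y * Real.log m) =
          w y * (h y * Real.log (h y)) - (w y * h y) * Real.log m := by intro y; ring
      simp_rw [this]
      rw [sum_sub_distrib, ← sum_mul]
    have h4 : Real.sqrt m ^ 2 = m := Real.sq_sqrt hm0.le
    nlinarith [sq_nonneg (Real.sqrt m - μ)]

/-- Hypotheses on a reversible lazy chain. -/
structure IsChain (π : ι → ℝ) (P : Matrix ι ι ℝ) : Prop where
  pos : ∀ x, 0 < π x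
  nonneg : ∀ x y, 0 ≤ P x y
  rowsum : ∀ x, ∑ y, P x y = 1
  rev : ∀ x y, π x * P x y = π y * P y x
  lazy : ∀ x, 1 / 2 ≤ P x x

variable {π : ι → ℝ} {P : Matrix ι ι ℝ}

lemma IsChain.stat (hc : IsChain π P) (u : ι → ℝ) :
    ∑ x, π x * ∑ y, P x y * u y = ∑ y, π y * u y := by
  simp_rw [mul_sum]
  rw [sum_comm]
  refine sum_congr rfl fun y _ => ?_
  have : ∀ x, π x * (P x y * u y) = (π y * u y) * P y x := by
    intro x; rw [← mul_assoc, hc.rev x y]; ring
  simp_rw [this]
  rw [← mul_sum, hc.rowsum, mul_one]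

/-- Entropy functional. -/
noncomputable def ent (π h : ι → ℝ) : ℝ := ∑ x, π x * (h x * Real.log (h x))

lemma IsChain.ent_step (hc : IsChain π P) (h : ι → ℝ) (hh : ∀ y, 0 ≤ h y) :
    (1 / 3) * ∑ x, π x * ∑ y, P x y * (Real.sqrt (h y) - Real.sqrt (h x)) ^ 2 ≤
      ent π h - ent π (fun x => ∑ y, P x y * h y) := by
  unfold ent
  rw [← hc.stat (fun y => h y * Real.log (h y)), ← sum_sub_distrib, mul_sum]
  refine sum_le_sum fun x _ => ?_
  have := ent_row (fun y => P x y) (hc.nonneg x) (hc.rowsum x) x (hc.lazy x) h hh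
  have h2 := mul_le_mul_of_nonneg_left this (hc.pos x).le
  nlinarith

/-- Heat kernel with respect to the reversing measure. -/
noncomputable def heat (π : ι → ℝ) (P : Matrix ι ι ℝ) (k : ℕ) (x y : ι) : ℝ :=
  (P ^ k) x y / π y

lemma IsChain.pow_nonneg (hc : IsChain π P) (k : ℕ) (x y : ι) : 0 ≤ (P ^ k) x y := by
  induction k generalizing x y with
  | zero => simp [Matrix.one_apply]; split_ifs <;> norm_num
  | succ k ih =>
    rw [pow_succ, Matrix.mul_apply]
    exact sum_nonneg fun z _ => mul_nonneg (ih x z) (hc.nonneg z y)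

lemma IsChain.pow_rowsum (hc : IsChain π P) (k : ℕ) (x : ι) : ∑ y, (P ^ k) x y = 1 := by
  induction k generalizing x with
  | zero => simp [Matrix.one_apply]
  | succ k ih =>
    simp_rw [pow_succ, Matrix.mul_apply]
    rw [sum_comm]
    simp_rw [← mul_sum, hc.rowsum, mul_one]
    exact ih x

lemma IsChain.pow_rev (hc : IsChain π P) (k : ℕ) (x y : ι) :
    π x * (P ^ k) x y = π y * (P ^ k) y x := by
  induction k generalizing x y with
  | zero =>
    simp only [pow_zero, Matrix.one_apply]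
    by_cases h : x = y
    · subst h; rfl
    · simp [h, Ne.symm h]
  | succ k ih =>
    conv_lhs => rw [pow_succ]
    conv_rhs => rw [pow_succ']
    rw [Matrix.mul_apply, Matrix.mul_apply, mul_sum, mul_sum]
    refine sum_congr rfl fun z _ => ?_
    rw [← mul_assoc, ih x z, ← mul_assoc, hc.rev y z]
    ring

lemma IsChain.heat_symm (hc : IsChain π P) (k : ℕ) (x y : ι) :
    heat π P k x y = heat π P k y x := by
  unfold heat
  rw [div_eq_div_iff (hc.pos y).ne' (hc.pos x).ne']
  have := hc.pow_rev k x y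
  linarith

lemma IsChain.heat_nonneg (hc : IsChain π P) (k : ℕ) (x y : ι) : 0 ≤ heat π P k x y :=
  div_nonneg (hc.pow_nonneg k x y) (hc.pos y).le

lemma IsChain.mul_heat (hc : IsChain π P) (k : ℕ) (x y : ι) :
    π y * heat π P k x y = (P ^ k) x y := by
  unfold heat
  field_simp [(hc.pos y).ne']

lemma IsChain.heat_mass (hc : IsChain π P) (k : ℕ) (y : ι) :
    ∑ x, π x * heat π P k x y = 1 := by
  simp_rw [fun x => hc.heat_symm k x y, hc.mul_heat]
  exact hc.pow_rowsum k y

lemma heat_succ (k : ℕ) (x y : ι) :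
    heat π P (k + 1) x y = ∑ z, P x z * heat π P k z y := by
  unfold heat
  rw [pow_succ', Matrix.mul_apply, sum_div]
  refine sum_congr rfl fun z _ => ?_
  ring

lemma IsChain.heat_add (hc : IsChain π P) (j k : ℕ) (x x' : ι) :
    heat π P (j + k) x x' = ∑ y, π y * (heat π P j x y * heat π P k x' y) := by
  have : ∀ y, π y * (heat π P j x y * heat π P k x' y) = (P ^ j) x y * (P ^ k) y x' / π x' := by
    intro y
    rw [← mul_assoc, hc.mul_heat, hc.heat_symm k x' y]
    unfold heat
    ring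
  simp_rw [this]
  unfold heat
  rw [pow_add, Matrix.mul_apply, sum_div]

lemma IsChain.ent_heat_zero (hc : IsChain π P) (y : ι) :
    ent π (fun x => heat π P 0 x y) = - Real.log (π y) := by
  unfold ent heat
  rw [sum_eq_single y]
  · simp only [pow_zero, Matrix.one_apply_eq]
    rw [Real.log_div one_ne_zero (hc.pos y).ne']
    field_simp [(hc.pos y).ne']
    simp
  · intro x _ hx
    simp [Matrix.one_apply, hx]
  · simp

lemma IsChain.ent_heat_lower (hc : IsChain π P) (k : ℕ) (y : ι) :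
    1 - ∑ x, π x ≤ ent π (fun x => heat π P k x y) := by
  unfold ent
  rw [← hc.heat_mass k y, ← sum_sub_distrib]
  refine sum_le_sum fun x _ => ?_
  have h1 : heat π P k x y - 1 ≤ heat π P k x y * Real.log (heat π P k x y) := by
    rcases (hc.heat_nonneg k x y).eq_or_lt with h | h
    · rw [← h]; simp
    · have := Real.one_sub_inv_le_log_of_pos h
      have h2 := mul_le_mul_of_nonneg_left this h.le
      rw [mul_sub, mul_inv_cancel₀ h.ne'] at h2
      linarith
  have := mul_le_mul_of_nonneg_left h1 (hc.pos x).le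
  linarith

/-- Total entropy dissipation along the heat flow. -/
lemma IsChain.dissipation (hc : IsChain π P) (htot : ∑ x, π x = 2) (N : ℕ) :
    ∑ y, π y * ∑ k ∈ range N, ∑ x, π x * ∑ z, P x z *
      (Real.sqrt (heat π P k z y) - Real.sqrt (heat π P k x y)) ^ 2 ≤
      3 * (2 * Real.log (Fintype.card ι) + 1) := by
  have hstep : ∀ y, ∑ k ∈ range N, ∑ x, π x * ∑ z, P x z *
      (Real.sqrt (heat π P k z y) - Real.sqrt (heat π P k x y)) ^ 2 ≤
      3 * (1 - Real.log (π y)) := by
    intro y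
    have h1 : ∀ k, ∑ x, π x * ∑ z, P x z *
        (Real.sqrt (heat π P k z y) - Real.sqrt (heat π P k x y)) ^ 2 ≤
        3 * (ent π (fun x => heat π P k x y) - ent π (fun x => heat π P (k + 1) x y)) := by
      intro k
      have := hc.ent_step (fun x => heat π P k x y) (fun x => hc.heat_nonneg k x y)
      simp_rw [heat_succ]
      linarith
    refine (sum_le_sum fun k _ => h1 k).trans ?_
    rw [← mul_sum, sum_range_sub' (fun k => ent π (fun x => heat π P k x y)), hc.ent_heat_zero]
    have := hc.ent_heat_lower N y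
    rw [htot] at this
    linarith
  have hne : Nonempty ι := by
    by_contra h
    rw [not_nonempty_iff] at h
    simp at htot
  have hn : (0 : ℝ) < Fintype.card ι := by exact_mod_cast Fintype.card_pos
  have h2 : ∀ y, π y * (3 * (1 - Real.log (π y))) ≤
      3 * (π y * Real.log (Fintype.card ι) + 1 / Fintype.card ι) := by
    intro y
    have hp := hc.pos y
    have h3 := Real.one_sub_inv_le_log_of_pos (mul_pos hn hp)
    rw [Real.log_mul hn.ne' hp.ne'] at h3
    have h4 := mul_le_mul_of_nonneg_left h3 hp.le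
    have h5 : π y * ((Fintype.card ι : ℝ) * π y)⁻¹ = 1 / Fintype.card ι := by
      field_simp
    rw [mul_sub, h5] at h4
    nlinarith
  calc _ ≤ ∑ y, π y * (3 * (1 - Real.log (π y))) :=
        sum_le_sum fun y _ => mul_le_mul_of_nonneg_left (hstep y) (hc.pos y).le
    _ ≤ ∑ y, 3 * (π y * Real.log (Fintype.card ι) + 1 / Fintype.card ι) :=
        sum_le_sum fun y _ => h2 y
    _ = _ := by
        rw [← mul_sum, sum_add_distrib, ← sum_mul, htot, sum_const, card_univ, nsmul_eq_mul]
        field_simp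

/-- Doeblin contraction of oscillation. -/
lemma IsChain.osc_step (hc : IsChain π P) {δ : ℝ} (x₀ : ι) (hδ : ∀ x, δ ≤ P x x₀)
    (u : ι → ℝ) {A : ℝ} (hu : ∀ x y, u x - u y ≤ A) (x y : ι) :
    ∑ z, P x z * u z - ∑ z, P y z * u z ≤ (1 - δ) * A := by
  obtain ⟨z₀, -, hz₀⟩ := exists_min_image univ u ⟨x₀, mem_univ _⟩
  have key : ∀ x, ∑ z, P x z * u z = u z₀ + δ * (u x₀ - u z₀) +
      ∑ z, (P x z - if z = x₀ then δ else 0) * (u z - u z₀) := by
    intro x
    have : ∀ z, (P x z - if z = x₀ then δ else 0) * (u z - u z₀) =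
        P x z * u z - u z₀ * P x z - if z = x₀ then δ * (u z - u z₀) else 0 := by
      intro z; split_ifs <;> ring
    simp_rw [this]
    rw [sum_sub_distrib, sum_sub_distrib, ← mul_sum, hc.rowsum, sum_ite_eq']
    simp
  have hq : ∀ x z, 0 ≤ P x z - if z = x₀ then δ else 0 := by
    intro x z
    split_ifs with h
    · subst h; linarith [hδ x]
    · simpa using hc.nonneg x z
  have h1 : 0 ≤ ∑ z, (P y z - if z = x₀ then δ else 0) * (u z - u z₀) :=
    sum_nonneg fun z _ => mul_nonneg (hq y z) (sub_nonneg.2 (hz₀ z (mem_univ _)))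
  have h2 : ∑ z, (P x z - if z = x₀ then δ else 0) * (u z - u z₀) ≤
      ∑ z, (P x z - if z = x₀ then δ else 0) * A :=
    sum_le_sum fun z _ => mul_le_mul_of_nonneg_left (hu z z₀) (hq x z)
  rw [← sum_mul, sum_sub_distrib, hc.rowsum, sum_ite_eq'] at h2
  simp only [mem_univ, if_true] at h2
  rw [key x, key y]
  linarith

lemma IsChain.osc_pow (hc : IsChain π P) {δ : ℝ} (x₀ : ι) (hδ : ∀ x, δ ≤ P x x₀)
    (u : ι → ℝ) {A : ℝ} (hu : ∀ x y, u x - u y ≤ A) (k : ℕ) (x y : ι) :
    ∑ z, (P ^ k) x z * u z - ∑ z, (P ^ k) y z * u z ≤ (1 - δ) ^ k * A := by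
  induction k generalizing x y with
  | zero => simpa [Matrix.one_apply] using hu x y
  | succ k ih =>
    have h1 : ∀ x, ∑ z, (P ^ (k + 1)) x z * u z = ∑ w, P x w * ∑ z, (P ^ k) w z * u z := by
      intro x
      simp_rw [pow_succ', Matrix.mul_apply, sum_mul, mul_sum]
      rw [sum_comm]
      simp_rw [mul_assoc]
    rw [h1, h1]
    have := hc.osc_step x₀ hδ (fun w => ∑ z, (P ^ k) w z * u z) ih x y
    rw [pow_succ]
    linarith

end Chain

end Vale.Agent.P249
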