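import Mathlib

/-! Functions bounded by `exp (C (log n) ^ γ)`. -/

namespace Vale.Agent.P249

/-- Growth at most `exp (C (log n) ^ γ)`. -/
def Slow (γ : ℝ) (u : ℕ → ℝ) : Prop :=
  ∃ C : ℝ, 0 ≤ C ∧ ∀ n : ℕ, 2 ≤ n → u n ≤ Real.exp (C * Real.log n ^ γ)

lemma log_two_le {n : ℕ} (hn : 2 ≤ n) : Real.log 2 ≤ Real.log n :=
  Real.log_le_log (by norm_num) (by exact_mod_cast hn)

lemma log_pos_of_two_le {n : ℕ} (hn : 2 ≤ n) : 0 < Real.log n :=
  (Real.log_pos (by norm_num)).trans_le (log_two_le hn)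

variable {γ : ℝ}

lemma Slow.mono {u v : ℕ → ℝ} (hv : Slow γ v) (h : ∀ n, 2 ≤ n → u n ≤ v n) : Slow γ u := by
  obtain ⟨C, hC, hv⟩ := hv
  exact ⟨C, hC, fun n hn => (h n hn).trans (hv n hn)⟩

lemma Slow.const (hγ : 0 < γ) (c : ℝ) : Slow γ (fun _ => c) := by
  have h2 : 0 < Real.log 2 ^ γ := Real.rpow_pos_of_pos (Real.log_pos (by norm_num)) γ
  refine ⟨|c| / Real.log 2 ^ γ, by positivity, fun n hn => ?_⟩
  have h1 : Real.log 2 ^ γ ≤ Real.log n ^ γ :=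
    Real.rpow_le_rpow (Real.log_pos (by norm_num)).le (log_two_le hn) hγ.le
  have h3 : |c| ≤ |c| / Real.log 2 ^ γ * Real.log n ^ γ := by
    rw [div_mul_eq_mul_div, le_div_iff₀ h2]
    exact mul_le_mul_of_nonneg_left h1 (abs_nonneg c)
  have h4 := Real.add_one_le_exp (|c| / Real.log 2 ^ γ * Real.log n ^ γ)
  linarith [le_abs_self c]

lemma Slow.mul {u v : ℕ → ℝ} (hu : Slow γ u) (hv : Slow γ v) (hv0 : ∀ n, 2 ≤ n → 0 ≤ v n) :
    Slow γ (fun n => u n * v n) := by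
  obtain ⟨C, hC, hu⟩ := hu
  obtain ⟨D, hD, hv⟩ := hv
  refine ⟨C + D, by positivity, fun n hn => ?_⟩
  rw [add_mul, Real.exp_add]
  exact mul_le_mul (hu n hn) (hv n hn) (hv0 n hn) (Real.exp_pos _).le

lemma Slow.exp {C : ℝ} (hC : 0 ≤ C) : Slow γ (fun n => Real.exp (C * Real.log n ^ γ)) :=
  ⟨C, hC, fun _ _ => le_rfl⟩

lemma Slow.add (hγ : 0 < γ) {u v : ℕ → ℝ} (hu : Slow γ u) (hv : Slow γ v) :
    Slow γ (fun n => u n + v n) := by
  obtain ⟨C, hC, hu⟩ := hu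
  obtain ⟨D, hD, hv⟩ := hv
  refine ((Slow.const hγ 2).mul (Slow.exp (γ := γ) (add_nonneg hC hD))
    fun n _ => (Real.exp_pos _).le).mono fun n hn => ?_
  have h0 : 0 ≤ Real.log n ^ γ := Real.rpow_nonneg (log_pos_of_two_le hn).le _
  have h1 : Real.exp (C * Real.log n ^ γ) ≤ Real.exp ((C + D) * Real.log n ^ γ) :=
    Real.exp_le_exp.2 (by nlinarith)
  have h2 : Real.exp (D * Real.log n ^ γ) ≤ Real.exp ((C + D) * Real.log n ^ γ) :=
    Real.exp_le_exp.2 (by nlinarith)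
  linarith [hu n hn, hv n hn]

lemma Slow.rpow {u : ℕ → ℝ} (hu : Slow γ u) (hu0 : ∀ n, 2 ≤ n → 0 ≤ u n) {p : ℝ} (hp : 0 ≤ p) :
    Slow γ (fun n => u n ^ p) := by
  obtain ⟨C, hC, hu⟩ := hu
  refine ⟨C * p, by positivity, fun n hn => ?_⟩
  refine (Real.rpow_le_rpow (hu0 n hn) (hu n hn) hp).trans (le_of_eq ?_)
  rw [← Real.exp_mul]
  ring_nf

lemma Slow.log (hγ : 0 < γ) : Slow γ (fun n => Real.log n) := by
  refine ⟨1 / γ, by positivity, fun n hn => ?_⟩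
  have h0 := log_pos_of_two_le hn
  have h1 : Real.log (Real.log n ^ γ) ≤ Real.log n ^ γ := by
    have := Real.log_le_sub_one_of_pos (Real.rpow_pos_of_pos h0 γ)
    linarith
  rw [Real.log_rpow h0] at h1
  refine (Real.log_le_iff_le_exp h0).1 ?_
  rw [one_div, ← div_eq_inv_mul, le_div_iff₀ hγ]
  linarith

end Vale.Agent.P249
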