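import Vale.Agent.P249.Chain

/-! The orthogonal projection onto gradients has small average absolute row sums. -/

set_option linter.unusedSectionVars false
set_option linter.unusedSimpArgs false

namespace Vale.Agent.P249

open Finset Filter Topology

section Loc

variable {ι E : Type*} [Fintype ι] [DecidableEq ι] [Fintype E]

/-- Normalised difference of a function along an edge. -/
noncomputable def grad (a b : E → ι) (r : E → ℝ) (h : ι → ℝ) (e : E) : ℝ :=
  (h (a e) - h (b e)) / r e

/-- The kernel on edges induced by a map from edge functions to vertex functions. -/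
noncomputable def ker (a b : E → ι) (r : E → ℝ) (S : ι → E → ℝ) (e e' : E) : ℝ :=
  (S (a e) e' - S (b e) e') / r e

/-- The kernel fixes gradients. -/
def Adm (a b : E → ι) (r : E → ℝ) (S : ι → E → ℝ) : Prop :=
  ∀ h : ι → ℝ, ∀ e, ∑ e', ker a b r S e e' * grad a b r h e' = grad a b r h e

lemma ker_apply (a b : E → ι) (r : E → ℝ) (S : ι → E → ℝ) (g : E → ℝ) (e : E) :
    ∑ e', ker a b r S e e' * g e' = grad a b r (fun x => ∑ e', S x e' * g e') e := by
  unfold ker grad
  rw [← sum_sub_distrib, sum_div]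
  refine sum_congr rfl fun e' _ => ?_
  ring

noncomputable def cond (a b : E → ι) (c : E → ℝ) (x y : ι) : ℝ :=
  ∑ e, c e * ((if a e = x ∧ b e = y then 1 else 0) + (if a e = y ∧ b e = x then 1 else 0))

noncomputable def piw (a b : E → ι) (ν : E → ℝ) (x : ι) : ℝ :=
  ∑ e, ν e * ((if a e = x then 1 else 0) + (if b e = x then 1 else 0))

lemma cond_symm (a b : E → ι) (c : E → ℝ) (x y : ι) : cond a b c x y = cond a b c y x := by
  unfold cond
  refine sum_congr rfl fun e _ => ?_
  ring

lemma sum_cond (a b : E → ι) (c : E → ℝ) (Φ : ι → ι → ℝ) :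
    ∑ x, ∑ y, cond a b c x y * Φ x y = ∑ e, c e * (Φ (a e) (b e) + Φ (b e) (a e)) := by
  unfold cond
  simp_rw [sum_mul]
  have : ∀ x, ∑ y, ∑ e, c e * ((if a e = x ∧ b e = y then (1 : ℝ) else 0) +
      (if a e = y ∧ b e = x then 1 else 0)) * Φ x y =
      ∑ e, ∑ y, c e * ((if a e = x ∧ b e = y then (1 : ℝ) else 0) +
      (if a e = y ∧ b e = x then 1 else 0)) * Φ x y := fun x => sum_comm
  simp_rw [this]
  rw [sum_comm]
  refine sum_congr rfl fun e _ => ?_
  have h1 : ∀ x y, c e * ((if a e = x ∧ b e = y then (1 : ℝ) else 0) +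
      (if a e = y ∧ b e = x then 1 else 0)) * Φ x y =
      (if a e = x then (if b e = y then c e * Φ x y else 0) else 0) +
      (if b e = x then (if a e = y then c e * Φ x y else 0) else 0) := by
    intro x y
    rw [← ite_and, ← ite_and]
    simp only [and_comm (a := b e = x)]
    split_ifs <;> ring
  simp_rw [h1, sum_add_distrib]
  simp only [sum_ite_irrel, sum_const_zero, sum_ite_eq, mem_univ, if_true]
  ring

lemma sum_piw (a b : E → ι) (ν : E → ℝ) (u : ι → ℝ) :
    ∑ x, piw a b ν x * u x = ∑ e, ν e * (u (a e) + u (b e)) := by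
  unfold piw
  simp_rw [sum_mul]
  rw [sum_comm]
  refine sum_congr rfl fun e _ => ?_
  have h1 : ∀ x, ν e * ((if a e = x then (1 : ℝ) else 0) + (if b e = x then 1 else 0)) * u x =
      (if a e = x then ν e * u x else 0) + (if b e = x then ν e * u x else 0) := by
    intro x
    by_cases h1 : a e = x <;> by_cases h2 : b e = x <;> simp [h1, h2]
    ring
  simp_rw [h1, sum_add_distrib]
  simp only [sum_ite_eq, mem_univ, if_true]
  ring

lemma cond_nonneg (a b : E → ι) (c : E → ℝ) (hc : ∀ e, 0 ≤ c e) (x y : ι) :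
    0 ≤ cond a b c x y :=
  sum_nonneg fun e _ => mul_nonneg (hc e) (by positivity)

lemma cond_pos (a b : E → ι) (c : E → ℝ) (hc : ∀ e, 0 < c e) {x y : ι}
    (h : ∃ e, a e = x ∧ b e = y) : 0 < cond a b c x y := by
  obtain ⟨e, he⟩ := h
  refine sum_pos' (fun e _ => mul_nonneg (hc e).le (by positivity)) ⟨e, mem_univ _, ?_⟩
  refine mul_pos (hc e) ?_
  rw [if_pos he]
  positivity

lemma piw_pos (a b : E → ι) (ν : E → ℝ) (hν : ∀ e, 0 < ν e) {x : ι}
    (h : ∃ e, a e = x) : 0 < piw a b ν x := by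
  obtain ⟨e, he⟩ := h
  refine sum_pos' (fun e _ => mul_nonneg (hν e).le (by positivity)) ⟨e, mem_univ _, ?_⟩
  refine mul_pos (hν e) ?_
  rw [if_pos he]
  positivity

/-- The lazy chain with given symmetric conductances. -/
noncomputable def chainP (π : ι → ℝ) (C : ι → ι → ℝ) (η : ℝ) : Matrix ι ι ℝ :=
  fun x y => η * C x y / π x + if x = y then 1 - η * (∑ z, C x z) / π x else 0

lemma chainP_apply (π : ι → ℝ) (C : ι → ι → ℝ) (η : ℝ) (hπ : ∀ x, 0 < π x) (x : ι)
    (u : ι → ℝ) :
    π x * ∑ y, chainP π C η x y * u y = π x * u x - η * ∑ y, C x y * (u x - u y) := by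
  unfold chainP
  simp_rw [add_mul, sum_add_distrib, ite_mul, zero_mul, sum_ite_eq, mem_univ, if_true]
  have h1 : ∑ y, η * C x y / π x * u y = η * (∑ y, C x y * u y) / π x := by
    rw [mul_sum, sum_div]
    refine sum_congr rfl fun y _ => ?_
    ring
  have h2 : ∑ y, C x y * (u x - u y) = (∑ y, C x y) * u x - ∑ y, C x y * u y := by
    rw [sum_mul, ← sum_sub_distrib]
    refine sum_congr rfl fun y _ => ?_
    ring
  rw [h1, h2]
  field_simp [(hπ x).ne']
  ring

lemma chainP_isChain (π : ι → ℝ) (C : ι → ι → ℝ) (η : ℝ) (hπ : ∀ x, 0 < π x)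
    (hη : 0 < η) (hC : ∀ x y, 0 ≤ C x y) (hs : ∀ x y, C x y = C y x)
    (hl : ∀ x, η * (∑ z, C x z) / π x ≤ 1 / 2) : IsChain π (chainP π C η) where
  pos := hπ
  nonneg x y := by
    unfold chainP
    have : 0 ≤ η * C x y / π x := div_nonneg (mul_nonneg hη.le (hC x y)) (hπ x).le
    split_ifs
    · linarith [hl x]
    · linarith
  rowsum x := by
    have := chainP_apply π C η hπ x (fun _ => 1)
    simp only [mul_one, sub_self, mul_zero, sum_const_zero, sub_zero] at this
    have h2 := hπ x
    field_simp at this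
    exact this
  rev x y := by
    unfold chainP
    by_cases h : x = y
    · subst h; rfl
    · rw [if_neg h, if_neg (Ne.symm h), hs x y]
      field_simp [(hπ x).ne', (hπ y).ne']
      ring
  lazy x := by
    unfold chainP
    have : 0 ≤ η * C x x / π x := div_nonneg (mul_nonneg hη.le (hC x x)) (hπ x).le
    rw [if_pos rfl]
    linarith [hl x]

lemma chainP_dirichlet (π : ι → ℝ) (C : ι → ι → ℝ) (η : ℝ) (hπ : ∀ x, 0 < π x) (x : ι)
    (s : ι → ℝ) :
    π x * ∑ z, chainP π C η x z * (s z - s x) ^ 2 = η * ∑ z, C x z * (s z - s x) ^ 2 := by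
  rw [chainP_apply π C η hπ x (fun z => (s z - s x) ^ 2)]
  simp only [sub_self, ne_eq, OfNat.ofNat_ne_zero, not_false_eq_true, zero_pow, mul_zero,
    zero_sub, mul_neg, sum_neg_distrib]
  ring

/-- Truncated potential operator built from the heat kernel. -/
noncomputable def potTerm (a b : E → ι) (r ν : E → ℝ) (π : ι → ℝ) (P : Matrix ι ι ℝ) (η : ℝ)
    (k : ℕ) (x : ι) (e' : E) : ℝ :=
  η * (ν e' / r e') * (heat π P k x (a e') - heat π P k x (b e'))

/-- Mixed second difference of the heat kernel. -/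
noncomputable def mix (a b : E → ι) (π : ι → ℝ) (P : Matrix ι ι ℝ) (k : ℕ) (e e' : E) : ℝ :=
  (heat π P k (a e) (a e') - heat π P k (a e) (b e')) -
    (heat π P k (b e) (a e') - heat π P k (b e) (b e'))

lemma mix_add {π : ι → ℝ} {P : Matrix ι ι ℝ} (hc : IsChain π P) (a b : E → ι) (j k : ℕ)
    (e e' : E) :
    mix a b π P (j + k) e e' = ∑ y, π y * ((heat π P j (a e) y - heat π P j (b e) y) *
      (heat π P k (a e') y - heat π P k (b e') y)) := by
  unfold mix
  simp only [hc.heat_add]
  rw [← sum_sub_distrib, ← sum_sub_distrib, ← sum_sub_distrib]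
  refine sum_congr rfl fun y _ => ?_
  ring

lemma mix_symm {π : ι → ℝ} {P : Matrix ι ι ℝ} (hc : IsChain π P) (a b : E → ι) (k : ℕ)
    (e e' : E) : mix a b π P k e e' = mix a b π P k e' e := by
  unfold mix
  rw [hc.heat_symm k (a e) (a e'), hc.heat_symm k (a e) (b e'), hc.heat_symm k (b e) (a e'),
    hc.heat_symm k (b e) (b e')]
  ring

/-- Weighted total variation of the heat kernel. -/
noncomputable def tv (a b : E → ι) (w : E → ℝ) (π : ι → ℝ) (P : Matrix ι ι ℝ) (j : ℕ) (y : ι) :
    ℝ := ∑ e, w e * |heat π P j (a e) y - heat π P j (b e) y|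

lemma mix_bound {π : ι → ℝ} {P : Matrix ι ι ℝ} (hc : IsChain π P) (a b : E → ι) (w : E → ℝ)
    (hw : ∀ e, 0 ≤ w e) (j k : ℕ) :
    ∑ e, ∑ e', w e * w e' * |mix a b π P (j + k) e e'| ≤
      (∑ y, π y * tv a b w π P j y ^ 2 + ∑ y, π y * tv a b w π P k y ^ 2) / 2 := by
  have h1 : ∀ e e', w e * w e' * |mix a b π P (j + k) e e'| ≤
      ∑ y, π y * ((w e * |heat π P j (a e) y - heat π P j (b e) y|) *
        (w e' * |heat π P k (a e') y - heat π P k (b e') y|)) := by
    intro e e'
    rw [mix_add hc]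
    refine (mul_le_mul_of_nonneg_left (abs_sum_le_sum_abs _ _)
      (mul_nonneg (hw e) (hw e'))).trans ?_
    rw [mul_sum]
    refine le_of_eq (sum_congr rfl fun y _ => ?_)
    rw [abs_mul, abs_mul, abs_of_pos (hc.pos y)]
    ring
  calc _ ≤ ∑ e, ∑ e', ∑ y, π y * ((w e * |heat π P j (a e) y - heat π P j (b e) y|) *
        (w e' * |heat π P k (a e') y - heat π P k (b e') y|)) :=
        sum_le_sum fun e _ => sum_le_sum fun e' _ => h1 e e'
    _ = ∑ y, π y * (tv a b w π P j y * tv a b w π P k y) := by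
        simp_rw [tv, sum_mul_sum, mul_sum]
        rw [sum_comm (β := ℝ) (s := univ) (t := univ)
          (f := fun y e => ∑ e', π y * ((w e * |heat π P j (a e) y - heat π P j (b e) y|) *
        (w e' * |heat π P k (a e') y - heat π P k (b e') y|)))]
        refine sum_congr rfl fun e _ => ?_
        rw [sum_comm]
    _ ≤ _ := by
        rw [← sum_add_distrib, sum_div]
        refine sum_le_sum fun y _ => ?_
        have := mul_nonneg (hc.pos y).le (sq_nonneg (tv a b w π P j y - tv a b w π P k y))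
        nlinarith

lemma sum_mix_bound {π : ι → ℝ} {P : Matrix ι ι ℝ} (hc : IsChain π P) (a b : E → ι)
    (w : E → ℝ) (hw : ∀ e, 0 ≤ w e) (N : ℕ) :
    ∑ k ∈ range (2 * N), ∑ e, ∑ e', w e * w e' * |mix a b π P k e e'| ≤
      2 * ∑ j ∈ range (N + 1), ∑ y, π y * tv a b w π P j y ^ 2 := by
  have hA : ∀ j, 0 ≤ ∑ y, π y * tv a b w π P j y ^ 2 := fun j =>
    sum_nonneg fun y _ => mul_nonneg (hc.pos y).le (sq_nonneg _)
  suffices h : ∑ k ∈ range (2 * N), ∑ e, ∑ e', w e * w e' * |mix a b π P k e e'| ≤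
      2 * ∑ j ∈ range (N + 1), ∑ y, π y * tv a b w π P j y ^ 2 -
        (3 / 2) * ∑ y, π y * tv a b w π P N y ^ 2 by
    linarith [hA N]
  induction N with
  | zero => simp only [mul_zero, range_zero, sum_empty, zero_add, range_one, sum_singleton]
            linarith [hA 0]
  | succ N ih =>
    rw [show 2 * (N + 1) = 2 * N + 1 + 1 by ring, sum_range_succ, sum_range_succ,
      sum_range_succ _ (N + 1)]
    have h1 := mix_bound hc a b w hw N N
    have h2 := mix_bound hc a b w hw N (N + 1)
    rw [show N + N = 2 * N by ring] at h1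
    rw [show N + (N + 1) = 2 * N + 1 by ring] at h2
    linarith

lemma tv_sq_le {π : ι → ℝ} {P : Matrix ι ι ℝ} (hc : IsChain π P) (a b : E → ι) (r ν : E → ℝ)
    (hr : ∀ e, 0 < r e) (hν : ∀ e, 0 < ν e) (hπ : π = piw a b ν) (j : ℕ) (y : ι) :
    tv a b (fun e => ν e / r e) π P j y ^ 2 ≤
      2 * ∑ e, ν e / r e ^ 2 *
        (Real.sqrt (heat π P j (a e) y) - Real.sqrt (heat π P j (b e) y)) ^ 2 := by
  set s : ι → ℝ := fun x => Real.sqrt (heat π P j x y) with hs
  have hs0 : ∀ x, 0 ≤ s x := fun x => Real.sqrt_nonneg _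
  have hss : ∀ x, s x ^ 2 = heat π P j x y := fun x => Real.sq_sqrt (hc.heat_nonneg j x y)
  have hcs := sum_sq_le_sum_mul_sum_of_sq_le_mul (s := (univ : Finset E))
    (r := fun e => ν e / r e * |heat π P j (a e) y - heat π P j (b e) y|)
    (f := fun e => ν e * (s (a e) + s (b e)) ^ 2)
    (g := fun e => ν e / r e ^ 2 * (s (a e) - s (b e)) ^ 2)
    (fun e _ => mul_nonneg (hν e).le (sq_nonneg _))
    (fun e _ => mul_nonneg (div_nonneg (hν e).le (sq_nonneg _)) (sq_nonneg _))
    (fun e _ => by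
      rw [mul_pow, sq_abs, ← hss, ← hss]
      refine le_of_eq ?_
      field_simp [(hr e).ne']
      ring)
  unfold tv
  refine hcs.trans (mul_le_mul_of_nonneg_right ?_ ?_)
  · have h1 : ∑ e, ν e * (s (a e) + s (b e)) ^ 2 ≤
        ∑ e, 2 * (ν e * (heat π P j (a e) y + heat π P j (b e) y)) := by
      refine sum_le_sum fun e _ => ?_
      rw [← hss, ← hss]
      have := mul_nonneg (hν e).le (sq_nonneg (s (a e) - s (b e)))
      nlinarith
    rw [← mul_sum, ← sum_piw a b ν (fun x => heat π P j x y), ← hπ, hc.heat_mass] at h1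
    linarith
  · exact sum_nonneg fun e _ => mul_nonneg (div_nonneg (hν e).le (sq_nonneg _)) (sq_nonneg _)

/-- The electrical projection: admissible, symmetric, with small average absolute row sum. -/
theorem exists_projection (a b : E → ι) (r ν : E → ℝ) (hr : ∀ e, 0 < r e) (hν : ∀ e, 0 < ν e)
    (hsum : ∑ e, ν e = 1) (hcomp : ∀ x y, x ≠ y → ∃ e, a e = x ∧ b e = y)
    (hinc : ∀ x, ∃ e, a e = x) :
    ∃ S : ι → E → ℝ, Adm a b r S ∧
      (∀ e e', ν e * ker a b r S e e' = ν e' * ker a b r S e' e) ∧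
      ∑ e, ν e * ∑ e', |ker a b r S e e'| ≤ 12 * Real.log (Fintype.card ι) + 6 := by
  set c : E → ℝ := fun e => ν e / r e ^ 2 with hcdef
  have hcpos : ∀ e, 0 < c e := fun e => div_pos (hν e) (pow_pos (hr e) 2)
  set π := piw a b ν with hπdef
  set C := cond a b c with hCdef
  have hπ : ∀ x, 0 < π x := fun x => piw_pos a b ν hν (hinc x)
  have hC : ∀ x y, 0 ≤ C x y := cond_nonneg a b c fun e => (hcpos e).le
  have htot : ∑ x, π x = 2 := by
    have := sum_piw a b ν (fun _ => 1)
    simp only [mul_one] at this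
    rw [hπdef, this, ← sum_mul, hsum]; norm_num
  have hne : Nonempty ι := by
    by_contra h
    rw [not_nonempty_iff] at h
    simp at htot
  obtain ⟨x₀⟩ := hne
  set T := ∑ x, (∑ z, C x z) / π x with hT
  have hT0 : ∀ x, 0 ≤ (∑ z, C x z) / π x := fun x =>
    div_nonneg (sum_nonneg fun z _ => hC x z) (hπ x).le
  have hT1 : 0 ≤ T := sum_nonneg fun x _ => hT0 x
  set η := 1 / (2 * (1 + T)) with hη
  have hη0 : 0 < η := by positivity
  have hl : ∀ x, η * (∑ z, C x z) / π x ≤ 1 / 2 := by
    intro x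
    have h1 : (∑ z, C x z) / π x ≤ T :=
      single_le_sum (f := fun x => (∑ z, C x z) / π x) (fun x _ => hT0 x) (mem_univ x)
    rw [mul_div_assoc, hη, div_mul_eq_mul_div, one_mul, div_le_div_iff₀ (by positivity)
      (by norm_num)]
    linarith
  set P := chainP π C η with hP
  have hc : IsChain π P := chainP_isChain π C η hπ hη0 hC (cond_symm a b c) hl
  -- Doeblin constant
  obtain ⟨x₁, -, hx₁⟩ := exists_min_image univ (fun x => P x x₀) ⟨x₀, mem_univ _⟩
  set δ := P x₁ x₀ with hδdef
  have hδ : ∀ x, δ ≤ P x x₀ := fun x => hx₁ x (mem_univ _)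
  have hδ0 : 0 < δ := by
    by_cases h : x₁ = x₀
    · have := hc.lazy x₁
      rw [hδdef, ← h]; linarith
    · rw [hδdef, hP]
      unfold chainP
      rw [if_neg h, add_zero]
      exact div_pos (mul_pos hη0 (cond_pos a b c hcpos (hcomp _ _ h))) (hπ _)
  have hδ1 : δ ≤ 1 := by
    rw [← hc.rowsum x₁]
    exact single_le_sum (f := fun y => P x₁ y) (fun y _ => hc.nonneg x₁ y) (mem_univ x₀)
  have hgeo : Tendsto (fun k : ℕ => (1 - δ) ^ k) atTop (𝓝 0) :=
    tendsto_pow_atTop_nhds_zero_of_lt_one (by linarith) (by linarith)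
  have hosc : ∀ (u : ι → ℝ) (x y : ι), ∃ A : ℝ, ∀ k : ℕ,
      |∑ z, (P ^ k) x z * u z - ∑ z, (P ^ k) y z * u z| ≤ (1 - δ) ^ k * A := by
    intro u x y
    have hu : ∀ x y, u x - u y ≤ 2 * ∑ z, |u z| := by
      intro x y
      have h1 : |u x| ≤ ∑ z, |u z| :=
        single_le_sum (f := fun z => |u z|) (fun z _ => abs_nonneg _) (mem_univ x)
      have h2 : |u y| ≤ ∑ z, |u z| :=
        single_le_sum (f := fun z => |u z|) (fun z _ => abs_nonneg _) (mem_univ y)
      linarith [le_abs_self (u x), neg_abs_le (u y)]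
    refine ⟨2 * ∑ z, |u z|, fun k => abs_sub_le_iff.2
      ⟨hc.osc_pow x₀ hδ u hu k x y, hc.osc_pow x₀ hδ u hu k y x⟩⟩
  have hsummable : ∀ x e', Summable (fun k => potTerm a b r ν π P η k x e') := by
    intro x e'
    obtain ⟨A, hA⟩ := hosc (fun z => if z = x then 1 / π x else 0) (a e') (b e')
    have h1 : ∀ k y, ∑ z, (P ^ k) y z * (if z = x then 1 / π x else 0) = heat π P k x y := by
      intro k y
      rw [hc.heat_symm k x y]
      simp [heat, div_eq_mul_inv]
    simp_rw [h1] at hA
    unfold potTerm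
    refine Summable.mul_left _ (Summable.of_norm_bounded
      ((summable_geometric_of_lt_one (by linarith) (by linarith : 1 - δ < 1)).mul_right A) hA)
  set S : ι → E → ℝ := fun x e' => ∑' k, potTerm a b r ν π P η k x e' with hS
  set SN : ℕ → ι → E → ℝ := fun N x e' => ∑ k ∈ range N, potTerm a b r ν π P η k x e' with hSN
  have hlim : ∀ x e', Tendsto (fun N => SN N x e') atTop (𝓝 (S x e')) := fun x e' =>
    (hsummable x e').hasSum.tendsto_sum_nat
  have hklim : ∀ e e', Tendsto (fun N => ker a b r (SN N) e e') atTop (𝓝 (ker a b r S e e')) :=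
    fun e e' => ((hlim _ _).sub (hlim _ _)).div_const _
  have hker : ∀ N e e', ν e * ker a b r (SN N) e e' =
      η * ∑ k ∈ range N, (ν e / r e) * (ν e' / r e') * mix a b π P k e e' := by
    intro N e e'
    unfold ker
    simp only [hSN]
    rw [← sum_sub_distrib, sum_div, mul_sum, mul_sum]
    refine sum_congr rfl fun k _ => ?_
    unfold potTerm mix
    ring
  refine ⟨S, ?_, ?_, ?_⟩
  · intro h e
    have hstep : ∀ k x, ∑ e', potTerm a b r ν π P η k x e' * grad a b r h e' =
        ∑ z, (P ^ k) x z * h z - ∑ z, (P ^ (k + 1)) x z * h z := by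
      intro k x
      have h1 := sum_cond a b c (fun z w => heat π P k x z * (h z - h w))
      have h2 : ∑ e', potTerm a b r ν π P η k x e' * grad a b r h e' =
          η * ∑ e', c e' * (heat π P k x (a e') * (h (a e') - h (b e')) +
            heat π P k x (b e') * (h (b e') - h (a e'))) := by
        rw [mul_sum]
        refine sum_congr rfl fun e' _ => ?_
        unfold potTerm grad
        simp only [hcdef]
        field_simp [(hr e').ne']
        ring
      have h3 : ∑ z, (P ^ (k + 1)) x z * h z = ∑ z, (P ^ k) x z * ∑ w, P z w * h w := by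
        simp_rw [pow_succ, Matrix.mul_apply, sum_mul, mul_sum]
        rw [sum_comm]
        simp_rw [mul_assoc]
      rw [h2, ← h1, h3, ← sum_sub_distrib, mul_sum]
      refine sum_congr rfl fun z _ => ?_
      have h4 := chainP_apply π C η hπ z h
      rw [← hc.mul_heat k x z]
      have h5 : ∑ y, cond a b c z y * (heat π P k x z * (h z - h y)) =
          heat π P k x z * ∑ y, C z y * (h z - h y) := by
        rw [mul_sum]
        refine sum_congr rfl fun y _ => ?_
        ring
      rw [h5]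
      have h6 : η * ∑ y, C z y * (h z - h y) = π z * h z - π z * ∑ y, P z y * h y := by
        linarith
      calc η * (heat π P k x z * ∑ y, C z y * (h z - h y))
          = heat π P k x z * (η * ∑ y, C z y * (h z - h y)) := by ring
        _ = _ := by rw [h6]; ring
    have hN : ∀ N x, ∑ e', SN N x e' * grad a b r h e' = h x - ∑ z, (P ^ N) x z * h z := by
      intro N x
      simp only [hSN]
      simp_rw [sum_mul]
      rw [sum_comm]
      simp_rw [hstep]
      rw [sum_range_sub' (fun k => ∑ z, (P ^ k) x z * h z)]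
      simp [Matrix.one_apply]
    have h1 : Tendsto (fun N => ∑ e', ker a b r (SN N) e e' * grad a b r h e') atTop
        (𝓝 (∑ e', ker a b r S e e' * grad a b r h e')) :=
      tendsto_finsetSum _ fun e' _ => (hklim e e').mul_const _
    have h2 : Tendsto (fun N => ∑ e', ker a b r (SN N) e e' * grad a b r h e') atTop
        (𝓝 (grad a b r h e)) := by
      have h0 : ∀ N, ∑ e', ker a b r (SN N) e e' * grad a b r h e' =
          ((h (a e) - ∑ z, (P ^ N) (a e) z * h z) - (h (b e) - ∑ z, (P ^ N) (b e) z * h z)) /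
            r e := by
        intro N
        rw [ker_apply, ← hN, ← hN]
        rfl
      simp_rw [h0]
      unfold grad
      obtain ⟨A, hA⟩ := hosc h (a e) (b e)
      have h3 : Tendsto (fun N : ℕ => ∑ z, (P ^ N) (a e) z * h z - ∑ z, (P ^ N) (b e) z * h z)
          atTop (𝓝 0) := by
        refine squeeze_zero_norm hA ?_
        simpa using hgeo.mul_const A
      have h4 := (h3.const_sub (h (a e) - h (b e))).div_const (r e)
      simp only [sub_zero] at h4
      refine h4.congr fun N => ?_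
      ring
    exact tendsto_nhds_unique h1 h2
  · intro e e'
    refine tendsto_nhds_unique ((hklim e e').const_mul (ν e)) ?_
    refine ((hklim e' e).const_mul (ν e')).congr fun N => ?_
    rw [hker, hker]
    congr 1
    refine sum_congr rfl fun k _ => ?_
    rw [mix_symm hc]
    ring
  · have h1 : Tendsto (fun N => ∑ e, ν e * ∑ e', |ker a b r (SN (2 * N)) e e'|) atTop
        (𝓝 (∑ e, ν e * ∑ e', |ker a b r S e e'|)) := by
      have h2 : Tendsto (fun N : ℕ => 2 * N) atTop atTop :=
        tendsto_id.const_mul_atTop' (by norm_num)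
      exact tendsto_finsetSum _ fun e _ => (tendsto_finsetSum _ fun e' _ =>
        ((hklim e e').comp h2).abs).const_mul _
    refine le_of_tendsto' h1 fun N => ?_
    have hw : ∀ e, 0 ≤ ν e / r e := fun e => div_nonneg (hν e).le (hr e).le
    have h2 : ∑ e, ν e * ∑ e', |ker a b r (SN (2 * N)) e e'| ≤
        η * ∑ k ∈ range (2 * N), ∑ e, ∑ e', (ν e / r e) * (ν e' / r e') * |mix a b π P k e e'| := by
      rw [sum_comm, mul_sum]
      refine sum_le_sum fun e _ => ?_
      rw [sum_comm, mul_sum, mul_sum]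
      refine sum_le_sum fun e' _ => ?_
      rw [← abs_of_pos (hν e), ← abs_mul, abs_of_pos (hν e), hker, abs_mul, abs_of_pos hη0]
      refine mul_le_mul_of_nonneg_left ((abs_sum_le_sum_abs _ _).trans (le_of_eq ?_)) hη0.le
      refine sum_congr rfl fun k _ => ?_
      rw [abs_mul, abs_of_nonneg (mul_nonneg (hw e) (hw e'))]
    have h3 := sum_mix_bound hc a b (fun e => ν e / r e) hw N
    have h4 := hc.dissipation htot (N + 1)
    have h5 : η * ∑ j ∈ range (N + 1), ∑ y, π y * tv a b (fun e => ν e / r e) π P j y ^ 2 ≤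
        ∑ y, π y * ∑ k ∈ range (N + 1), ∑ x, π x * ∑ z, P x z *
          (Real.sqrt (heat π P k z y) - Real.sqrt (heat π P k x y)) ^ 2 := by
      rw [sum_comm, mul_sum]
      refine sum_le_sum fun y _ => ?_
      rw [← mul_sum, mul_left_comm, mul_sum]
      refine mul_le_mul_of_nonneg_left (sum_le_sum fun k _ => ?_) (hπ y).le
      simp_rw [hP, chainP_dirichlet π C η hπ]
      rw [← mul_sum]
      refine mul_le_mul_of_nonneg_left ?_ hη0.le
      rw [hCdef, sum_cond a b c (fun x z => (Real.sqrt (heat π (chainP π (cond a b c) η) k z y) -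
        Real.sqrt (heat π (chainP π (cond a b c) η) k x y)) ^ 2)]
      refine (tv_sq_le hc a b r ν hr hν hπdef k y).trans (le_of_eq ?_)
      rw [mul_sum]
      refine sum_congr rfl fun e _ => ?_
      simp only [hcdef, hP, hCdef]
      ring
    have h6 := mul_le_mul_of_nonneg_left h3 hη0.le
    nlinarith

/-- A symmetric admissible kernel is an orthogonal projection. -/
lemma contraction (a b : E → ι) (r ν : E → ℝ) (hν : ∀ e, 0 ≤ ν e) (S : ι → E → ℝ)
    (hadm : Adm a b r S) (hsym : ∀ e e', ν e * ker a b r S e e' = ν e' * ker a b r S e' e)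
    (g : E → ℝ) :
    ∑ e, ν e * (∑ e', ker a b r S e e' * g e' - g e) ^ 2 ≤ ∑ e, ν e * g e ^ 2 := by
  set u : E → ℝ := fun e => ∑ e', ker a b r S e e' * g e' with hu
  have h1 : ∀ e, ∑ e', ker a b r S e e' * u e' = u e := by
    intro e
    have h0 : u = grad a b r (fun x => ∑ e', S x e' * g e') := by
      funext e; exact ker_apply a b r S g e
    rw [h0]
    exact hadm _ e
  have h2 : ∑ e, ν e * u e ^ 2 = ∑ e, ν e * (g e * u e) := by
    have h3 : ∀ e, ν e * u e ^ 2 = ∑ e', g e' * (ν e' * (ker a b r S e' e * u e)) := by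
      intro e
      rw [sq]
      conv_lhs => rw [← mul_assoc, mul_comm (ν e), mul_assoc]
      conv_lhs => enter [2, 2]; simp only [hu]
      rw [mul_sum, mul_sum]
      refine sum_congr rfl fun e' _ => ?_
      rw [← mul_assoc (ν e), hsym e e']
      ring
    simp_rw [h3]
    rw [sum_comm]
    refine sum_congr rfl fun e' _ => ?_
    rw [← mul_sum, ← mul_sum, h1]
    ring
  have h4 : ∑ e, ν e * (u e - g e) ^ 2 =
      ∑ e, ν e * u e ^ 2 - 2 * ∑ e, ν e * (g e * u e) + ∑ e, ν e * g e ^ 2 := by
    rw [mul_sum, ← sum_sub_distrib, ← sum_add_distrib]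
    refine sum_congr rfl fun e _ => ?_
    ring
  have h5 : 0 ≤ ∑ e, ν e * u e ^ 2 := sum_nonneg fun e _ => mul_nonneg (hν e) (sq_nonneg _)
  change ∑ e, ν e * (u e - g e) ^ 2 ≤ _
  linarith

end Loc

end Vale.Agent.P249
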