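import Vale.Agent.P249.Ineq

/-! Empirical sampling from a finite probability space, with truncation. -/

set_option linter.unusedSectionVars false
set_option linter.unusedSimpArgs false

namespace Vale.Agent.P249

open Finset

section Sampling

variable {Ω E : Type*} [Fintype Ω] [Fintype E]

lemma exists_le_of_weighted (W : Ω → ℝ) (hW : ∀ ω, 0 ≤ W ω) (hW1 : ∑ ω, W ω = 1) (f : Ω → ℝ)
    {c : ℝ} (h : ∑ ω, W ω * f ω ≤ c) : ∃ ω, f ω ≤ c := by
  by_contra hcon
  push Not at hcon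
  obtain ⟨ω₀, hω₀⟩ : ∃ ω, 0 < W ω := by
    by_contra h0
    push Not at h0
    have : ∑ ω, W ω ≤ 0 := sum_nonpos fun ω _ => h0 ω
    linarith
  have h1 : ∑ ω, W ω * c < ∑ ω, W ω * f ω :=
    sum_lt_sum (fun ω _ => mul_le_mul_of_nonneg_left (hcon ω).le (hW ω))
      ⟨ω₀, mem_univ _, mul_lt_mul_of_pos_left (hcon ω₀) hω₀⟩
  rw [← sum_mul, hW1, one_mul] at h1
  linarith

lemma mgf_bound (W : Ω → ℝ) (hW : ∀ ω, 0 ≤ W ω) (hW1 : ∑ ω, W ω = 1) (U : Ω → ℝ) {l : ℝ}
    (hl : l ≤ 1) (hU : ∀ ω, |U ω| ≤ l) (hU0 : ∑ ω, W ω * U ω = 0) :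
    ∑ ω, W ω * Real.exp (U ω) ≤ Real.exp (l ^ 2) := by
  have h1 : ∑ ω, W ω * Real.exp (U ω) ≤ ∑ ω, W ω * (1 + l ^ 2 + U ω) := by
    refine sum_le_sum fun ω _ => mul_le_mul_of_nonneg_left ?_ (hW ω)
    have h2 := (abs_le.1 (Real.abs_exp_sub_one_sub_id_le ((hU ω).trans hl))).2
    have h3 : U ω ^ 2 ≤ l ^ 2 := by
      rw [← sq_abs]; exact pow_le_pow_left₀ (abs_nonneg _) (hU ω) 2
    linarith
  simp_rw [mul_add (W _) (1 + l ^ 2), sum_add_distrib, ← sum_mul, hW1, hU0] at h1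
  linarith [Real.add_one_le_exp (l ^ 2)]

lemma sampling_potential (W : Ω → ℝ) (hW : ∀ ω, 0 ≤ W ω) (hW1 : ∑ ω, W ω = 1) (U : Ω → E → ℝ)
    {l : ℝ} (hl : l ≤ 1) (hU : ∀ ω e, |U ω e| ≤ l) (hU0 : ∀ e, ∑ ω, W ω * U ω e = 0) (d : ℕ) :
    ∃ ω : Fin d → Ω, ∑ e, (Real.exp (∑ k, U (ω k) e) + Real.exp (- ∑ k, U (ω k) e)) ≤
      2 * Fintype.card E * Real.exp (d * l ^ 2) := by
  induction d with
  | zero =>
    refine ⟨Fin.elim0, le_of_eq ?_⟩
    simp
    ring
  | succ d ih =>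
    obtain ⟨ω, hω⟩ := ih
    set S : E → ℝ := fun e => ∑ k, U (ω k) e with hS
    obtain ⟨ω₀, h₀⟩ := exists_le_of_weighted W hW hW1
      (fun ω₀ => ∑ e, (Real.exp (U ω₀ e + S e) + Real.exp (- (U ω₀ e + S e))))
      (c := Real.exp (l ^ 2) * ∑ e, (Real.exp (S e) + Real.exp (- S e))) (by
        simp_rw [mul_sum]
        rw [sum_comm]
        refine sum_le_sum fun e _ => ?_
        have h1 := mgf_bound W hW hW1 (fun ω => U ω e) hl (fun ω => hU ω e) (hU0 e)
        have h2 := mgf_bound W hW hW1 (fun ω => - U ω e) hl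
          (fun ω => by rw [abs_neg]; exact hU ω e) (by
            simp_rw [mul_neg, sum_neg_distrib, hU0 e, neg_zero])
        have h3 : ∑ ω, W ω * (Real.exp (U ω e + S e) + Real.exp (-(U ω e + S e))) =
            (∑ ω, W ω * Real.exp (U ω e)) * Real.exp (S e) +
            (∑ ω, W ω * Real.exp (- U ω e)) * Real.exp (- S e) := by
          rw [sum_mul, sum_mul, ← sum_add_distrib]
          refine sum_congr rfl fun ω _ => ?_
          rw [neg_add, Real.exp_add, Real.exp_add]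
          ring
        rw [h3, mul_add]
        exact add_le_add (mul_le_mul_of_nonneg_right h1 (Real.exp_pos _).le)
          (mul_le_mul_of_nonneg_right h2 (Real.exp_pos _).le))
    refine ⟨Fin.cons ω₀ ω, ?_⟩
    simp only [Fin.sum_univ_succ, Fin.cons_zero, Fin.cons_succ]
    refine h₀.trans ((mul_le_mul_of_nonneg_left hω (Real.exp_pos _).le).trans (le_of_eq ?_))
    push_cast
    rw [add_mul, one_mul, Real.exp_add]
    ring

lemma sampling [Nonempty E] (W : Ω → ℝ) (hW : ∀ ω, 0 ≤ W ω) (hW1 : ∑ ω, W ω = 1)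
    (Z : Ω → E → ℝ) {B ζ : ℝ} (hζ : 0 < ζ) (hB : ζ ≤ 2 * B) (hZ0 : ∀ ω e, 0 ≤ Z ω e)
    (hZ : ∀ ω e, Z ω e ≤ B) (d : ℕ)
    (hd : 4 * B ^ 2 * Real.log (2 * Fintype.card E) ≤ d * ζ ^ 2) :
    ∃ ω : Fin d → Ω, ∀ e, |∑ k, Z (ω k) e - d * ∑ ω, W ω * Z ω e| ≤ d * ζ := by
  have hB0 : 0 < B := by linarith
  set μ : E → ℝ := fun e => ∑ ω, W ω * Z ω e with hμ
  have hμ0 : ∀ e, 0 ≤ μ e := fun e => sum_nonneg fun ω _ => mul_nonneg (hW ω) (hZ0 ω e)
  have hμ1 : ∀ e, μ e ≤ B := by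
    intro e
    calc μ e ≤ ∑ ω, W ω * B := sum_le_sum fun ω _ => mul_le_mul_of_nonneg_left (hZ ω e) (hW ω)
      _ = B := by rw [← sum_mul, hW1, one_mul]
  set l := ζ / (2 * B) with hl
  have hl0 : 0 < l := by positivity
  have hl1 : l ≤ 1 := by rw [hl, div_le_one (by positivity)]; exact hB
  obtain ⟨ω, hω⟩ := sampling_potential W hW hW1 (fun ω e => l / B * (Z ω e - μ e)) hl1
    (fun ω e => by
      rw [abs_mul, abs_of_pos (by positivity), div_mul_eq_mul_div, div_le_iff₀ hB0]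
      refine mul_le_mul_of_nonneg_left (abs_le.2 ⟨?_, ?_⟩) hl0.le
      · linarith [hZ0 ω e, hμ1 e]
      · linarith [hZ ω e, hμ0 e])
    (fun e => by
      have : ∀ ω, W ω * (l / B * (Z ω e - μ e)) = l / B * (W ω * Z ω e) - l / B * μ e * W ω := by
        intro ω; ring
      simp_rw [this]
      rw [sum_sub_distrib, ← mul_sum, ← mul_sum, hW1]
      simp [hμ]) d
  refine ⟨ω, fun e => ?_⟩
  set T := ∑ k, l / B * (Z (ω k) e - μ e) with hT
  have hT1 : T = l / B * (∑ k, Z (ω k) e - d * μ e) := by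
    rw [hT, ← mul_sum, sum_sub_distrib]
    simp
  have hcard : (0 : ℝ) < 2 * Fintype.card E := by
    have : (0 : ℝ) < Fintype.card E := by exact_mod_cast Fintype.card_pos
    linarith
  have h1 : Real.exp T + Real.exp (-T) ≤ 2 * Fintype.card E * Real.exp (d * l ^ 2) :=
    le_trans (single_le_sum (f := fun e => Real.exp (∑ k, l / B * (Z (ω k) e - μ e)) +
      Real.exp (- ∑ k, l / B * (Z (ω k) e - μ e))) (fun e _ => by positivity) (mem_univ e)) hω
  have h2 : Real.exp |T| ≤ Real.exp (Real.log (2 * Fintype.card E) + d * l ^ 2) := by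
    rw [Real.exp_add, Real.exp_log hcard]
    refine le_trans ?_ h1
    rcases abs_choice T with h | h <;> rw [h]
    · linarith [Real.exp_pos (-T)]
    · linarith [Real.exp_pos T]
  rw [Real.exp_le_exp, hT1, abs_mul, abs_of_pos (by positivity : 0 < l / B)] at h2
  change |∑ k, Z (ω k) e - d * μ e| ≤ d * ζ
  have h3 : Real.log (2 * Fintype.card E) ≤ d * l ^ 2 := by
    rw [hl, div_pow, ← mul_div_assoc, le_div_iff₀ (by positivity)]
    nlinarith
  have h4 : l / B * (d * ζ) = 2 * (d * l ^ 2) := by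
    rw [hl]; field_simp
  have h5 : l / B * |∑ k, Z (ω k) e - d * μ e| ≤ l / B * (d * ζ) := by linarith
  exact le_of_mul_le_mul_left h5 (by positivity)

/-- Sampling of `p`-th powers of variables with exponential moments, after truncation. -/
lemma truncated_sampling [Nonempty E] (W : Ω → ℝ) (hW : ∀ ω, 0 ≤ W ω) (hW1 : ∑ ω, W ω = 1)
    (Y : Ω → E → ℝ) {p R G B ζ : ℝ} (hp : 0 < p) (hR : 0 < R) (hζ : 0 < ζ)
    (hexp : ∀ e, ∑ ω, W ω * (Real.exp (Y ω e / R) + Real.exp (-(Y ω e / R))) ≤ 6)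
    (hG1 : 1 ≤ G) (hG : R ^ p * (2 * p) ^ p * (6 * Fintype.card E) ≤ ζ * G)
    (hB1 : (2 * R * Real.log G) ^ p ≤ B) (hB : ζ ≤ 2 * B) (d : ℕ)
    (hd : 4 * B ^ 2 * Real.log (2 * Fintype.card E) ≤ d * ζ ^ 2) :
    ∃ (ω : Fin d → Ω) (c : Fin d → ℝ), ∀ e,
      |∑ k, |c k * Y (ω k) e| ^ p - d * ∑ ω, W ω * |Y ω e| ^ p| ≤ d * (2 * ζ) := by
  classical
  set Ψ : Ω → ℝ := fun ω => ∑ e, (Real.exp (Y ω e / R) + Real.exp (-(Y ω e / R))) with hΨ
  have hΨ1 : ∀ ω e, Real.exp (|Y ω e / R|) ≤ Ψ ω := by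
    intro ω e
    refine le_trans ?_ (single_le_sum (f := fun e => Real.exp (Y ω e / R) +
      Real.exp (-(Y ω e / R))) (fun e _ => by positivity) (mem_univ e))
    rcases abs_choice (Y ω e / R) with h | h <;> rw [h]
    · linarith [Real.exp_pos (-(Y ω e / R))]
    · linarith [Real.exp_pos (Y ω e / R)]
  have hΨ2 : ∑ ω, W ω * Ψ ω ≤ 6 * Fintype.card E := by
    simp_rw [hΨ, mul_sum]
    rw [sum_comm]
    refine (sum_le_sum fun e _ => hexp e).trans (le_of_eq ?_)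
    simp [mul_comm]
  set c : Ω → ℝ := fun ω => if Ψ ω ≤ G ^ 2 then 1 else 0 with hc
  have hG0 : 0 < G := by linarith
  have hB0 : 0 < B := by linarith
  obtain ⟨ω, hω⟩ := sampling W hW hW1 (fun ω e => |c ω * Y ω e| ^ p) hζ hB
    (fun ω e => by positivity) (fun ω e => by
      simp only [hc]
      split_ifs with h
      · refine le_trans (Real.rpow_le_rpow (abs_nonneg _) ?_ hp.le) hB1
        have h1 := (hΨ1 ω e).trans h
        rw [← Real.exp_log (by positivity : 0 < G ^ 2), Real.exp_le_exp, Real.log_pow, abs_div,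
          abs_of_pos hR, div_le_iff₀ hR] at h1
        rw [one_mul]
        push_cast at h1
        linarith
      · simp [Real.zero_rpow hp.ne', hB0.le]) d hd
  refine ⟨ω, fun k => c (ω k), fun e => ?_⟩
  have h1 := hω e
  have h2 : ∑ ω, W ω * |c ω * Y ω e| ^ p ≤ ∑ ω, W ω * |Y ω e| ^ p := by
    refine sum_le_sum fun ω _ => mul_le_mul_of_nonneg_left ?_ (hW ω)
    simp only [hc]
    split_ifs
    · rw [one_mul]
    · rw [zero_mul, abs_zero, Real.zero_rpow hp.ne']; positivity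
  have h3 : ∑ ω, W ω * |Y ω e| ^ p ≤ ∑ ω, W ω * |c ω * Y ω e| ^ p + ζ := by
    have h4 : ∀ ω, |Y ω e| ^ p ≤ |c ω * Y ω e| ^ p + R ^ p * (2 * p) ^ p / G * Ψ ω := by
      intro ω
      have hΨ0 : 0 < Ψ ω := (Real.exp_pos _).trans_le (hΨ1 ω e)
      simp only [hc]
      split_ifs with h
      · rw [one_mul]
        have : 0 ≤ R ^ p * (2 * p) ^ p / G * Ψ ω := by positivity
        linarith
      · push Not at h
        rw [zero_mul, abs_zero, Real.zero_rpow hp.ne', zero_add]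
        have h5 := abs_rpow_le_exp hp (Y ω e / R)
        have h6 : Real.exp (|Y ω e / R| / 2) ≤ Ψ ω / G := by
          rw [le_div_iff₀ hG0]
          have h7 : Real.exp (|Y ω e / R| / 2) ^ 2 ≤ Ψ ω := by
            rw [← Real.exp_nat_mul]
            push_cast
            rw [mul_div_cancel₀ _ (by norm_num : (2 : ℝ) ≠ 0)]
            exact hΨ1 ω e
          nlinarith [sq_nonneg (Real.exp (|Y ω e / R| / 2) - G)]
        have h8 : |Y ω e| ^ p = R ^ p * |Y ω e / R| ^ p := by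
          rw [← Real.mul_rpow hR.le (abs_nonneg _), abs_div, abs_of_pos hR]
          congr 1; field_simp
        rw [h8]
        calc R ^ p * |Y ω e / R| ^ p ≤ R ^ p * ((2 * p) ^ p * (Ψ ω / G)) :=
              mul_le_mul_of_nonneg_left (h5.trans (mul_le_mul_of_nonneg_left h6 (by positivity)))
                (by positivity)
          _ = _ := by ring
    have h9 : ∑ ω, W ω * |Y ω e| ^ p ≤
        ∑ ω, W ω * (|c ω * Y ω e| ^ p + R ^ p * (2 * p) ^ p / G * Ψ ω) :=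
      sum_le_sum fun ω _ => mul_le_mul_of_nonneg_left (h4 ω) (hW ω)
    simp_rw [mul_add, sum_add_distrib, mul_left_comm (W _) (R ^ p * (2 * p) ^ p / G),
      ← mul_sum] at h9
    have h10 : R ^ p * (2 * p) ^ p / G * ∑ ω, W ω * Ψ ω ≤ ζ := by
      refine (mul_le_mul_of_nonneg_left hΨ2 (by positivity)).trans ?_
      rw [div_mul_eq_mul_div, div_le_iff₀ hG0]
      exact hG
    linarith
  have hd0 : (0 : ℝ) ≤ d := Nat.cast_nonneg d
  have h11 := mul_le_mul_of_nonneg_left h2 hd0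
  have h12 := mul_le_mul_of_nonneg_left h3 hd0
  rw [abs_le] at h1 ⊢
  constructor <;> nlinarith [h1.1, h1.2]

end Sampling

end Vale.Agent.P249
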