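import Vale.Agent.P249.Signs
import Vale.Agent.P249.Sampling
import Vale.Agent.P249.Loc

/-! Merging many sparse coordinates into few by random signed sums. -/

set_option linter.unusedSectionVars false
set_option linter.unusedSimpArgs false

namespace Vale.Agent.P249

open Finset

lemma ssum_add {m : ℕ} (y z : Fin m → ℝ) (ω : Fin m → SignType) :
    ssum (fun i => y i + z i) ω = ssum y ω + ssum z ω := by
  unfold ssum; simp_rw [mul_add, sum_add_distrib]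

lemma ssum_mul {m : ℕ} (y : Fin m → ℝ) (c : ℝ) (ω : Fin m → SignType) :
    ssum (fun i => y i * c) ω = ssum y ω * c := by
  unfold ssum; simp_rw [sum_mul, mul_assoc]

lemma Ex_total {p ζ δ c₁ c₂ C S : ℝ} (hp : 1 ≤ p) (hζ : 0 < ζ) (hζ1 : ζ ≤ 1)
    (hc₁ : 0 ≤ c₁) (hc₂ : 0 ≤ c₂)
    (hpt : ∀ s y : ℝ, (|s + y| ^ p + |s - y| ^ p) / 2 ≤
      |s| ^ p + c₁ * ((1 + |s| ^ p) * y ^ 2) + c₂ * |y| ^ p)
    (hC : 0 ≤ C) (hadd : ∀ a b : ℝ, |a + b| ^ p ≤ (1 + ζ) * |a| ^ p + C * |b| ^ p)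
    {m : ℕ} {q : Fin m → ℝ} (hq : ∀ i, 0 ≤ q i ∧ q i ≤ 1) (y w : Fin m → ℝ)
    (hδ : ∑ i, q i * nz (w i) ≤ δ) (hδ1 : 5 * (2 ^ p * δ) ≤ ζ)
    (hmain : ∑ i, q i * |w i| ^ p = S) (hS : 0 ≤ S)
    (herr : C * (Real.exp (c₁ * ∑ i, q i * (y i - w i) ^ 2) *
      (1 + c₂ * ∑ i, q i * |y i - w i| ^ p)) ≤ ζ * S) :
    (1 - 3 * ζ) * S ≤ Ex q (fun ω => |ssum y ω| ^ p) ∧
      Ex q (fun ω => |ssum y ω| ^ p) ≤ (1 + 4 * ζ) * S := by
  have hp0 : 0 < p := by linarith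
  have hsplit : ∀ ω, ssum y ω = ssum w ω + ssum (fun i => y i - w i) ω := by
    intro ω; rw [← ssum_add]; congr 1; funext i; ring
  have hE := Ex_err hp0 hc₁ hc₂ hpt hq (fun i => y i - w i)
  have hE2 : C * Ex q (fun ω => |ssum (fun i => y i - w i) ω| ^ p) ≤ ζ * S := by
    refine le_trans (mul_le_mul_of_nonneg_left ?_ hC) herr
    linarith
  have hQ : 0 ≤ ∑ i, q i * nz (w i) := sum_nonneg fun i _ => mul_nonneg (hq i).1 (nz_nonneg _)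
  have hδ0 : 0 ≤ δ := hQ.trans hδ
  have h2p : (1 : ℝ) ≤ 2 ^ p := Real.one_le_rpow (by norm_num) hp0.le
  have hlow := Ex_main_lower hp hq w hδ
  have hup := Ex_main_upper hp0 hq w hδ
  rw [hmain] at hlow hup
  set x := 2 ^ p * δ with hx
  have hx0 : 0 ≤ x := by positivity
  have hδx : δ ≤ x := le_mul_of_one_le_left hδ0 h2p
  have hexp : Real.exp (2 ^ p * ∑ i, q i * nz (w i)) ≤ 1 + 2 * x := by
    refine (Real.exp_le_exp.2 (mul_le_mul_of_nonneg_left hδ (by positivity))).trans ?_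
    have h1 := (abs_le.1 (Real.abs_exp_sub_one_sub_id_le (x := x)
      (by rw [abs_of_nonneg hx0]; linarith))).2
    nlinarith
  have hup2 : Ex q (fun ω => |ssum w ω| ^ p) ≤ (1 + ζ) * S := by
    refine hup.trans (mul_le_mul_of_nonneg_right ?_ hS)
    have := mul_le_mul_of_nonneg_left hexp (by linarith : 0 ≤ 1 + x)
    nlinarith
  have hZ0 : 0 ≤ Ex q (fun ω => |ssum y ω| ^ p) :=
    (Ex_mono hq (Φ := fun _ => 0) (fun ω => by positivity)).trans_eq' (Ex_const _ 0)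
  constructor
  · have h1 : Ex q (fun ω => |ssum w ω| ^ p) ≤ Ex q (fun ω => (1 + ζ) * |ssum y ω| ^ p +
        C * |ssum (fun i => y i - w i) ω| ^ p + 0) := by
      refine Ex_mono hq fun ω => ?_
      have := hadd (ssum y ω) (- ssum (fun i => y i - w i) ω)
      rw [abs_neg, hsplit ω, add_neg_cancel_right, ← hsplit ω] at this
      linarith
    rw [Ex_lin] at h1
    have h2 : (1 - 2 * ζ) * S ≤ (1 + ζ) * Ex q (fun ω => |ssum y ω| ^ p) := by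
      have : (1 - ζ) * S ≤ (1 - δ) * S := mul_le_mul_of_nonneg_right (by linarith) hS
      linarith
    have h3 : (1 + ζ) * ((1 - 3 * ζ) * S) ≤ (1 + ζ) * Ex q (fun ω => |ssum y ω| ^ p) := by
      have := mul_nonneg (sq_nonneg ζ) hS
      nlinarith
    exact le_of_mul_le_mul_left h3 (by linarith)
  · have h1 : Ex q (fun ω => |ssum y ω| ^ p) ≤ Ex q (fun ω => (1 + ζ) * |ssum w ω| ^ p +
        C * |ssum (fun i => y i - w i) ω| ^ p + 0) := by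
      refine Ex_mono hq fun ω => ?_
      have := hadd (ssum w ω) (ssum (fun i => y i - w i) ω)
      rw [← hsplit ω] at this
      linarith
    rw [Ex_lin] at h1
    have h2 := mul_le_mul_of_nonneg_left hup2 (by linarith : 0 ≤ 1 + ζ)
    have h3 : ζ * ζ * S ≤ ζ * S := mul_le_mul_of_nonneg_right (by nlinarith) hS
    nlinarith

theorem merge_fin {ι E : Type*} [Fintype E] [Nonempty E] (a b : E → ι) (r : E → ℝ)
    {p ζ δ c₁ c₂ C S R G B : ℝ} (hp : 1 ≤ p) (hζ : 0 < ζ) (hζ1 : ζ ≤ 1)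
    (hc₁ : 0 ≤ c₁) (hc₂ : 0 ≤ c₂)
    (hpt : ∀ s y : ℝ, (|s + y| ^ p + |s - y| ^ p) / 2 ≤
      |s| ^ p + c₁ * ((1 + |s| ^ p) * y ^ 2) + c₂ * |y| ^ p)
    (hC : 0 ≤ C) (hadd : ∀ a b : ℝ, |a + b| ^ p ≤ (1 + ζ) * |a| ^ p + C * |b| ^ p)
    {m : ℕ} (q : Fin m → ℝ) (hq : ∀ i, 0 ≤ q i ∧ q i ≤ 1) (h : Fin m → ι → ℝ)
    (w : Fin m → E → ℝ)
    (hδ : ∀ e, ∑ i, q i * nz (w i e) ≤ δ) (hδ1 : 5 * (2 ^ p * δ) ≤ ζ)
    (hmain : ∀ e, ∑ i, q i * |w i e| ^ p = S) (hS : 1 ≤ S)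
    (herr : ∀ e, C * (Real.exp (c₁ * ∑ i, q i * (grad a b r (h i) e - w i e) ^ 2) *
      (1 + c₂ * ∑ i, q i * |grad a b r (h i) e - w i e| ^ p)) ≤ ζ * S)
    (hR : 0 < R) (hy : ∀ i e, |grad a b r (h i) e| ≤ R)
    (hy2 : ∀ e, ∑ i, q i * grad a b r (h i) e ^ 2 ≤ R ^ 2)
    (hG1 : 1 ≤ G) (hG : R ^ p * (2 * p) ^ p * (6 * Fintype.card E) ≤ ζ * G)
    (hB1 : (2 * R * Real.log G) ^ p ≤ B) (hB : ζ ≤ 2 * B) (d : ℕ)
    (hd : 4 * B ^ 2 * Real.log (2 * Fintype.card E) ≤ d * ζ ^ 2) :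
    ∃ F : Fin d → ι → ℝ, ∀ e, d * ((1 - 5 * ζ) * S) ≤ ∑ k, |grad a b r (F k) e| ^ p ∧
      ∑ k, |grad a b r (F k) e| ^ p ≤ d * ((1 + 6 * ζ) * S) := by
  have hp0 : 0 < p := by linarith
  have hexp : ∀ (e : E) (σ : ℝ), |σ| = 1 →
      Ex q (fun ω => Real.exp (ssum (fun i => grad a b r (h i) e) ω * (σ / R))) ≤ 3 := by
    intro e σ hσ
    simp_rw [← ssum_mul]
    refine (Ex_exp hq _ fun i => ?_).trans ?_
    · rw [abs_mul, abs_div, hσ, abs_of_pos hR, mul_one_div, div_le_one hR]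
      exact hy i e
    · have h1 : ∑ i, q i * (grad a b r (h i) e * (σ / R)) ^ 2 ≤ 1 := by
        have h2 : σ ^ 2 = 1 := by rw [← sq_abs, hσ]; norm_num
        simp_rw [mul_pow, div_pow, h2, ← mul_assoc, ← sum_mul]
        rw [mul_one_div, div_le_one (by positivity)]
        exact hy2 e
      exact (Real.exp_le_exp.2 h1).trans (Real.exp_one_lt_d9.le.trans (by norm_num))
  obtain ⟨ω, c, hω⟩ := truncated_sampling (pw q) (pw_nonneg hq) (pw_sum q)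
    (fun ω e => ssum (fun i => grad a b r (h i) e) ω) hp0 hR hζ (fun e => by
      have h1 := hexp e 1 abs_one
      have h2 := hexp e (-1) (by simp)
      have h3 := Ex_add q (fun ω => Real.exp (ssum (fun i => grad a b r (h i) e) ω * (1 / R)))
        (fun ω => Real.exp (ssum (fun i => grad a b r (h i) e) ω * (-1 / R)))
      refine le_trans (le_of_eq ?_) (h3.trans_le (by linarith))
      unfold Ex
      refine sum_congr rfl fun ω _ => ?_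
      congr 3 <;> ring) hG1 hG hB1 hB d hd
  refine ⟨fun k x => c k * ∑ i, (ω k i : ℝ) * h i x, fun e => ?_⟩
  have h1 : ∀ k, grad a b r (fun x => c k * ∑ i, (ω k i : ℝ) * h i x) e =
      c k * ssum (fun i => grad a b r (h i) e) (ω k) := by
    intro k
    unfold grad ssum
    rw [← mul_sub, ← sum_sub_distrib, mul_div_assoc, sum_div]
    congr 1
    refine sum_congr rfl fun i _ => ?_
    ring
  simp_rw [h1]
  have h2 := abs_le.1 (hω e)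
  have h3 := Ex_total hp hζ hζ1 hc₁ hc₂ hpt hC hadd hq (fun i => grad a b r (h i) e)
    (fun i => w i e) (hδ e) hδ1 (hmain e) (by linarith) (herr e)
  unfold Ex at h3
  have hd0 : (0 : ℝ) ≤ d := Nat.cast_nonneg d
  have h4 := mul_le_mul_of_nonneg_left h3.1 hd0
  have h5 := mul_le_mul_of_nonneg_left h3.2 hd0
  have h6 : d * (2 * ζ) ≤ d * (2 * ζ * S) :=
    mul_le_mul_of_nonneg_left (le_mul_of_one_le_right (by linarith) hS) hd0
  constructor <;> nlinarith [h2.1, h2.2]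

theorem merge {ι E I : Type*} [Fintype E] [Nonempty E] [Fintype I] (a b : E → ι) (r : E → ℝ)
    {p ζ δ c₁ c₂ C S R G B : ℝ} (hp : 1 ≤ p) (hζ : 0 < ζ) (hζ1 : ζ ≤ 1)
    (hc₁ : 0 ≤ c₁) (hc₂ : 0 ≤ c₂)
    (hpt : ∀ s y : ℝ, (|s + y| ^ p + |s - y| ^ p) / 2 ≤
      |s| ^ p + c₁ * ((1 + |s| ^ p) * y ^ 2) + c₂ * |y| ^ p)
    (hC : 0 ≤ C) (hadd : ∀ a b : ℝ, |a + b| ^ p ≤ (1 + ζ) * |a| ^ p + C * |b| ^ p)
    (q : I → ℝ) (hq : ∀ i, 0 ≤ q i ∧ q i ≤ 1) (h : I → ι → ℝ) (w : I → E → ℝ)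
    (hδ : ∀ e, ∑ i, q i * nz (w i e) ≤ δ) (hδ1 : 5 * (2 ^ p * δ) ≤ ζ)
    (hmain : ∀ e, ∑ i, q i * |w i e| ^ p = S) (hS : 1 ≤ S)
    (herr : ∀ e, C * (Real.exp (c₁ * ∑ i, q i * (grad a b r (h i) e - w i e) ^ 2) *
      (1 + c₂ * ∑ i, q i * |grad a b r (h i) e - w i e| ^ p)) ≤ ζ * S)
    (hR : 0 < R) (hy : ∀ i e, |grad a b r (h i) e| ≤ R)
    (hy2 : ∀ e, ∑ i, q i * grad a b r (h i) e ^ 2 ≤ R ^ 2)
    (hG1 : 1 ≤ G) (hG : R ^ p * (2 * p) ^ p * (6 * Fintype.card E) ≤ ζ * G)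
    (hB1 : (2 * R * Real.log G) ^ p ≤ B) (hB : ζ ≤ 2 * B) (d : ℕ)
    (hd : 4 * B ^ 2 * Real.log (2 * Fintype.card E) ≤ d * ζ ^ 2) :
    ∃ F : Fin d → ι → ℝ, ∀ e, d * ((1 - 5 * ζ) * S) ≤ ∑ k, |grad a b r (F k) e| ^ p ∧
      ∑ k, |grad a b r (F k) e| ^ p ≤ d * ((1 + 6 * ζ) * S) := by
  set φ := (Fintype.equivFin I).symm with hφ
  refine merge_fin a b r hp hζ hζ1 hc₁ hc₂ hpt hC hadd (fun i => q (φ i)) (fun i => hq _)
    (fun i => h (φ i)) (fun i => w (φ i)) (fun e => ?_) hδ1 (fun e => ?_) hS (fun e => ?_) hR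
    (fun i e => hy _ e) (fun e => ?_) hG1 hG hB1 hB d hd
  · rw [φ.sum_comp (fun i => q i * nz (w i e))]; exact hδ e
  · rw [φ.sum_comp (fun i => q i * |w i e| ^ p)]; exact hmain e
  · rw [φ.sum_comp (fun i => q i * (grad a b r (h i) e - w i e) ^ 2),
      φ.sum_comp (fun i => q i * |grad a b r (h i) e - w i e| ^ p)]
    exact herr e
  · rw [φ.sum_comp (fun i => q i * grad a b r (h i) e ^ 2)]; exact hy2 e

end Vale.Agent.P249
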