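import Vale.Agent.P249.Err
import Vale.Agent.P249.Merge
import Vale.Agent.P249.Growth

/-! The finite dimension reduction theorem. -/

set_option linter.unusedSectionVars false
set_option linter.unusedSimpArgs false

namespace Vale.Agent.P249

open Finset

noncomputable def rho1 (n : ℕ) : ℝ := 5 * (12 * Real.log n + 6) + 1

noncomputable def parL (γ A : ℝ) (n : ℕ) : ℕ := ⌈A * rho1 n ^ γ⌉₊

noncomputable def parR (γ A : ℝ) (m n : ℕ) : ℝ := rho1 n * (tau (m + 3 * parL γ A n))⁻¹

noncomputable def parT (p ζ γ A : ℝ) (m n : ℕ) : ℝ := parR γ A m n ^ p * ((2 * p) ^ p * 6 / ζ)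

noncomputable def parB (p ζ γ A : ℝ) (m n : ℕ) : ℝ :=
  1 + (2 * parR γ A m n * (parT p ζ γ A m n + 2 * Real.log n)) ^ p

noncomputable def parD (p ζ γ A : ℝ) (m n : ℕ) : ℕ :=
  ⌈(4 / ζ ^ 2 * parB p ζ γ A m n) * (parB p ζ γ A m n * (1 + 2 * Real.log n))⌉₊ + 1

lemma one_le_rho1 (n : ℕ) : 1 ≤ rho1 n := by
  unfold rho1
  have := Real.log_natCast_nonneg n
  linarith

lemma parR_pos (γ A : ℝ) (m n : ℕ) : 0 < parR γ A m n :=
  mul_pos (by linarith [one_le_rho1 n]) (inv_pos.2 (tau_pos _))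

lemma parT_pos {p ζ : ℝ} (hp : 0 < p) (hζ : 0 < ζ) (γ A : ℝ) (m n : ℕ) :
    0 < parT p ζ γ A m n := by
  unfold parT
  have := parR_pos γ A m n
  positivity

lemma one_le_parB {p ζ : ℝ} (hp : 0 < p) (hζ : 0 < ζ) (γ A : ℝ) (m n : ℕ) :
    1 ≤ parB p ζ γ A m n := by
  unfold parB
  have := parR_pos γ A m n
  have := parT_pos hp hζ γ A m n
  have := Real.log_natCast_nonneg n
  exact le_add_of_nonneg_right (by positivity)

lemma slow_parD {p ζ γ A : ℝ} (hp : 0 < p) (hζ : 0 < ζ) (hγ : 0 < γ) (hA : 0 ≤ A) (m : ℕ) :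
    Slow γ (fun n => (parD p ζ γ A m n : ℝ)) := by
  have hlog : ∀ n : ℕ, 0 ≤ Real.log n := Real.log_natCast_nonneg
  have h1 : Slow γ rho1 :=
    (Slow.add hγ ((Slow.const hγ 60).mul (Slow.log hγ) fun n _ => hlog n)
      (Slow.const hγ 31)).mono fun n _ => by unfold rho1; linarith
  set c := 60 + 31 / Real.log 2 with hc
  have hl2 : 0 < Real.log 2 := Real.log_pos (by norm_num)
  have hc0 : 0 < c := by positivity
  have h2 : Slow γ (fun n => (tau (m + 3 * parL γ A n))⁻¹) := by
    refine ((Slow.const hγ (Real.exp (m + 3))).mul (Slow.exp (γ := γ)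
      (by positivity : 0 ≤ 3 * (A * c ^ γ))) fun n _ => (Real.exp_pos _).le).mono fun n hn => ?_
    have h3 : rho1 n ≤ c * Real.log n := by
      have h4 : 31 ≤ 31 / Real.log 2 * Real.log n := by
        rw [div_mul_eq_mul_div, le_div_iff₀ hl2]
        linarith [log_two_le hn]
      unfold rho1
      rw [hc]
      linarith
    have h5 : rho1 n ^ γ ≤ c ^ γ * Real.log n ^ γ := by
      rw [← Real.mul_rpow hc0.le (hlog n)]
      exact Real.rpow_le_rpow (by linarith [one_le_rho1 n]) h3 hγ.le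
    have h6 : (parL γ A n : ℝ) ≤ A * rho1 n ^ γ + 1 :=
      (Nat.ceil_lt_add_one (mul_nonneg hA (Real.rpow_nonneg (by linarith [one_le_rho1 n]) _))).le
    have h7 : (tau (m + 3 * parL γ A n))⁻¹ ≤ Real.exp ((m + 3 * parL γ A n : ℕ) : ℝ) := by
      unfold tau
      rw [one_div, inv_pow, inv_inv, ← Real.exp_one_pow]
      exact pow_le_pow_left₀ (by norm_num) (by linarith [Real.add_one_le_exp 1]) _
    refine h7.trans ?_
    rw [← Real.exp_add, Real.exp_le_exp]
    push_cast
    nlinarith [mul_le_mul_of_nonneg_left h5 hA]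
  have hR : Slow γ (parR γ A m) := h1.mul h2 fun n _ => (inv_pos.2 (tau_pos _)).le
  have hT : Slow γ (parT p ζ γ A m) :=
    (hR.rpow (fun n _ => (parR_pos γ A m n).le) hp.le).mul (Slow.const hγ _)
      fun n _ => by positivity
  have hl : Slow γ (fun n => 2 * Real.log n) :=
    (Slow.const hγ 2).mul (Slow.log hγ) fun n _ => hlog n
  have hB : Slow γ (parB p ζ γ A m) :=
    Slow.add hγ (Slow.const hγ 1) (Slow.rpow (((Slow.const hγ 2).mul hR
      fun n _ => (parR_pos γ A m n).le).mul (Slow.add hγ hT hl) fun n _ => by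
        have := parT_pos hp hζ γ A m n
        have := hlog n
        positivity) (fun n _ => by
        have := parT_pos hp hζ γ A m n
        have := parR_pos γ A m n
        have := hlog n
        positivity) hp.le)
  have hB0 : ∀ n, 0 ≤ parB p ζ γ A m n := fun n => by linarith [one_le_parB hp hζ γ A m n]
  have hD : Slow γ (fun n =>
      (4 / ζ ^ 2 * parB p ζ γ A m n) * (parB p ζ γ A m n * (1 + 2 * Real.log n))) :=
    ((Slow.const hγ _).mul hB fun n _ => hB0 n).mul
      (hB.mul (Slow.add hγ (Slow.const hγ 1) hl) fun n _ => by linarith [hlog n])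
      fun n _ => mul_nonneg (hB0 n) (by linarith [hlog n])
  refine (Slow.add hγ hD (Slow.const hγ 2)).mono fun n _ => ?_
  unfold parD
  push_cast
  have := hB0 n
  have := hlog n
  have := (Nat.ceil_lt_add_one (a := (4 / ζ ^ 2 * parB p ζ γ A m n) *
    (parB p ζ γ A m n * (1 + 2 * Real.log n))) (by positivity)).le
  linarith

lemma sum_prod_range {J : Type*} [Fintype J] (N : ℕ) (u : J → ℕ → ℝ) :
    ∑ i : J × Fin N, u i.1 i.2 = ∑ j, ∑ l ∈ range N, u j l := by
  rw [Fintype.sum_prod_type]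
  exact sum_congr rfl fun j _ => Fin.sum_univ_eq_sum_range (u j) N

set_option maxHeartbeats 1600000 in
theorem core {p ζ : ℝ} (hp : 1 < p) (hp2 : p ≠ 2) (hζ : 0 < ζ) (hζ1 : ζ ≤ 1) :
    ∃ dim : ℕ → ℕ, Slow |1 - 2 / p| (fun n => (dim n : ℝ)) ∧
      ∀ n : ℕ, 2 ≤ n → ∀ (J : Type) [Fintype J] (f : J → Fin n → ℝ),
        (∀ x y, x ≠ y → 0 < ∑ j, |f j x - f j y| ^ p) →
        ∃ (F : Fin (dim n) → Fin n → ℝ) (s : ℝ), 0 < s ∧ ∀ x y,
          s * (1 - 5 * ζ) * ∑ j, |f j x - f j y| ^ p ≤ ∑ k, |F k x - F k y| ^ p ∧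
          ∑ k, |F k x - F k y| ^ p ≤ s * (1 + 6 * ζ) * ∑ j, |f j x - f j y| ^ p := by
  have hp0 : 0 < p := by linarith
  set γ := |1 - 2 / p| with hγdef
  have hγp : γ * p = |p - 2| := by
    rw [hγdef, ← abs_of_pos hp0, ← abs_mul, abs_of_pos hp0]
    congr 1; field_simp
  have hγ : 0 < γ := by
    have : 0 < |p - 2| := abs_pos.2 (sub_ne_zero.2 hp2)
    rw [← hγp] at this
    exact (mul_pos_iff_of_pos_right hp0).1 this
  obtain ⟨c₁, c₂, Ce, hc₁, hc₂, hCe, hpt, hErr⟩ : ∃ c₁ c₂ Ce : ℝ, 0 ≤ c₁ ∧ 0 ≤ c₂ ∧ 0 < Ce ∧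
      (∀ s y : ℝ, (|s + y| ^ p + |s - y| ^ p) / 2 ≤
        |s| ^ p + c₁ * ((1 + |s| ^ p) * y ^ 2) + c₂ * |y| ^ p) ∧ ErrBound p c₁ c₂ Ce := by
    rcases lt_or_gt_of_ne hp2 with h | h
    · obtain ⟨c, hc, hpt⟩ := two_point_small hp0 h.le
      obtain ⟨Ce, hCe, hE⟩ := errBound_small hp h hc
      exact ⟨0, c, Ce, le_rfl, hc, hCe, hpt, hE⟩
    · obtain ⟨c, hc, hpt⟩ := two_point_large h.le
      obtain ⟨Ce, hCe, hE⟩ := errBound_large h hc hc
      exact ⟨c, c, Ce, hc, hc, hCe, hpt, hE⟩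
  obtain ⟨C, hC, hadd⟩ := abs_add_rpow_le hp0 hζ
  have hgc := gc_pos hp0
  obtain ⟨m, hm⟩ : ∃ m : ℕ, 5 * (2 ^ p * (gc p * tau m ^ p)) ≤ ζ := by
    obtain ⟨m, hm⟩ := exists_pow_lt_of_lt_one (by positivity : 0 < ζ / (5 * 2 ^ p * gc p))
      (by norm_num : (1 / 2 : ℝ) < 1)
    refine ⟨m, ?_⟩
    have h1 : tau m ^ p ≤ tau m :=
      Real.rpow_le_self_of_le_one (tau_pos m).le (tau_le_one m) hp.le
    rw [lt_div_iff₀ (by positivity)] at hm
    have h2 := mul_le_mul_of_nonneg_right h1 (by positivity : 0 ≤ 5 * 2 ^ p * gc p)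
    change tau m * _ < _ at hm
    nlinarith
  set A := 1 + 2 * C * Ce / ζ with hA
  have hA1 : 1 ≤ A := le_add_of_nonneg_right (by positivity)
  refine ⟨parD p ζ γ A m, slow_parD hp0 hζ hγ (by linarith) m, ?_⟩
  intro n hn J _ f hf
  let E := {e : Fin n × Fin n // e.1 ≠ e.2}
  set a : E → Fin n := fun e => e.1.1 with ha
  set b : E → Fin n := fun e => e.1.2 with hb
  set r : E → ℝ := fun e => (∑ j, |f j (a e) - f j (b e)| ^ p) ^ (1 / p) with hr
  have hr0 : ∀ e, 0 < r e := fun e => Real.rpow_pos_of_pos (hf _ _ e.2) _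
  have hrp : ∀ e, r e ^ p = ∑ j, |f j (a e) - f j (b e)| ^ p := fun e => by
    simp only [hr]
    rw [← Real.rpow_mul (hf _ _ e.2).le, one_div_mul_cancel hp0.ne', Real.rpow_one]
  have hgradp : ∀ (u : Fin n → ℝ) e, |grad a b r u e| ^ p = |u (a e) - u (b e)| ^ p / r e ^ p := by
    intro u e
    unfold grad
    rw [abs_div, abs_of_pos (hr0 e), Real.div_rpow (abs_nonneg _) (hr0 e).le]
  have hnorm : ∀ e, ∑ j, |grad a b r (f j) e| ^ p = 1 := by
    intro e
    simp_rw [hgradp]
    rw [← sum_div, ← hrp, div_self (Real.rpow_pos_of_pos (hr0 e) p).ne']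
  have hcomp : ∀ x y, x ≠ y → ∃ e, a e = x ∧ b e = y := fun x y h => ⟨⟨(x, y), h⟩, rfl, rfl⟩
  have : Nontrivial (Fin n) := Fin.nontrivial_iff_two_le.2 hn
  have hinc : ∀ x, ∃ e, a e = x := fun x => by
    obtain ⟨y, hy⟩ := exists_ne x
    exact ⟨⟨(x, y), hy.symm⟩, rfl⟩
  have : Nonempty E := by
    obtain ⟨x, y, h⟩ := exists_pair_ne (Fin n)
    exact ⟨⟨(x, y), h⟩⟩
  set g : J → E → ℝ := fun j => grad a b r (f j) with hg
  have hg1 : ∀ j e, |g j e| ≤ 1 := fun j e =>
    abs_le_one_of_sum hp0 (fun j => g j e) (hnorm e) j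
  obtain ⟨K, hK⟩ : ∃ K : ℕ, ∀ j e, g j e ≠ 0 → tau K < |g j e| := by
    have h1 : ∀ t : J × E, ∃ k : ℕ, g t.1 t.2 ≠ 0 → tau k < |g t.1 t.2| := by
      intro t
      by_cases h : g t.1 t.2 = 0
      · exact ⟨0, fun h' => absurd h h'⟩
      · obtain ⟨k, hk⟩ := exists_level h (hg1 _ _)
        exact ⟨k + 1, fun _ => hk.1⟩
    choose k hk using h1
    exact ⟨univ.sup k, fun j e h =>
      (tau_anti (le_sup (f := k) (mem_univ (j, e)))).trans_lt (hk (j, e) h)⟩
  set L := parL γ A n with hL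
  have hρ1 := one_le_rho1 n
  have hργ : 1 ≤ rho1 n ^ γ := Real.one_le_rpow hρ1 hγ.le
  have hLA : A * rho1 n ^ γ ≤ L := Nat.le_ceil _
  have hLA' : A ≤ L := le_trans (le_mul_of_one_le_right (by linarith) hργ) hLA
  have hL1 : 1 ≤ L := by exact_mod_cast hA1.trans hLA'
  have hL0 : (0 : ℝ) < L := by linarith
  set N := K + (m + 3 * L) with hN
  obtain ⟨S, hrow, herr⟩ := hErr (Fin n) E J a b r hr0 hcomp hinc f hnorm m L N hL1
  rw [Fintype.card_fin] at hrow herr
  have hmass := mass_ge (p := p) (m := m) hL1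
  have hδ1 : gc p * tau m ^ p ≤ 1 := by
    have : (1 : ℝ) ≤ 2 ^ p := Real.one_le_rpow (by norm_num) hp0.le
    have h0 : 0 ≤ gc p * tau m ^ p := mul_nonneg hgc.le (Real.rpow_nonneg (tau_pos m).le _)
    nlinarith
  have hsparse : ∀ e, ∑ j, ∑ l ∈ range N, tau l ^ p * nz (win m L N l (g j e)) ≤
      gc p * tau m ^ p := by
    intro e
    refine (sum_le_sum fun j _ => win_sparse hp0 (hg1 j e)).trans (le_of_eq ?_)
    rw [← mul_sum, hnorm e, mul_one]
  set M := (tau (m + 3 * L))⁻¹ with hM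
  have hM0 : 0 < M := inv_pos.2 (tau_pos _)
  have hcardE : (Fintype.card E : ℝ) ≤ (n : ℝ) ^ 2 := by
    have := Fintype.card_subtype_le (fun e : Fin n × Fin n => e.1 ≠ e.2)
    rw [Fintype.card_prod, Fintype.card_fin] at this
    rw [sq]
    exact_mod_cast this
  have hcardE0 : (0 : ℝ) < Fintype.card E := by exact_mod_cast Fintype.card_pos
  have hn1 : (1 : ℝ) ≤ n := by exact_mod_cast (by omega : 1 ≤ n)
  have hT0 := parT_pos hp0 hζ γ A m n
  have hR0 := parR_pos γ A m n
  have hB1 := one_le_parB hp0 hζ γ A m n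
  have hlogn := Real.log_natCast_nonneg n
  obtain ⟨F, hF⟩ := merge a b r (δ := gc p * tau m ^ p) (S := mass p m L) (R := parR γ A m n)
    (G := 1 + parT p ζ γ A m n * (n : ℝ) ^ 2) (B := parB p ζ γ A m n)
    hp.le hζ hζ1 hc₁ hc₂ hpt hC hadd
    (fun i : J × Fin N => tau i.2 ^ p)
    (fun i => ⟨Real.rpow_nonneg (tau_pos _).le _,
      Real.rpow_le_one (tau_pos _).le (tau_le_one _) hp0.le⟩)
    (fun i => pot S m L N i.2 (g i.1)) (fun i e => win m L N i.2 (g i.1 e))
    (fun e => by
      rw [sum_prod_range N (fun j l => tau l ^ p * nz (win m L N l (g j e)))]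
      exact hsparse e) hm
    (fun e => by
      rw [sum_prod_range N (fun j l => tau l ^ p * |win m L N l (g j e)| ^ p)]
      rw [sum_congr rfl fun j _ => win_mass hp0 (hg1 j e) (hK j e), ← sum_mul, hnorm e, one_mul])
    (by linarith [(by exact_mod_cast hL1 : (1 : ℝ) ≤ L)])
    (fun e => by
      rw [sum_prod_range N (fun j l => tau l ^ p *
          (grad a b r (pot S m L N l (g j)) e - win m L N l (g j e)) ^ 2),
        sum_prod_range N (fun j l => tau l ^ p *
          |grad a b r (pot S m L N l (g j)) e - win m L N l (g j e)| ^ p)]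
      refine (mul_le_mul_of_nonneg_left (herr e) hC).trans ?_
      change C * (Ce * (1 + L * (1 / L) ^ p * rho1 n ^ |p - 2|)) ≤ _
      have h1 : (1 / L : ℝ) ^ p * rho1 n ^ |p - 2| ≤ 1 / A := by
        rw [← hγp, Real.rpow_mul (by linarith), ← Real.mul_rpow (by positivity) (by linarith)]
        have h2 : 1 / L * rho1 n ^ γ ≤ 1 / A := by
          rw [one_div_mul_eq_div, div_le_div_iff₀ hL0 (by linarith)]
          linarith
        refine (Real.rpow_le_rpow (by positivity) h2 hp0.le).trans ?_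
        exact Real.rpow_le_self_of_le_one (by positivity)
          (by rw [div_le_one (by linarith)]; exact hA1) hp.le
      have h3 : 1 + L * (1 / L : ℝ) ^ p * rho1 n ^ |p - 2| ≤ 2 * (L / A) := by
        have h4 : 1 ≤ L / A := by rw [le_div_iff₀ (by linarith)]; linarith
        have h5 := mul_le_mul_of_nonneg_left h1 hL0.le
        rw [mul_one_div, ← mul_assoc] at h5
        linarith
      have h6 : 2 * C * Ce ≤ ζ * A := by
        rw [hA, mul_add, mul_div_cancel₀ _ hζ.ne']
        linarith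
      have h7 : C * (Ce * (2 * (L / A))) ≤ ζ * L := by
        have := mul_le_mul_of_nonneg_right h6 (by positivity : 0 ≤ L / A)
        rw [mul_assoc ζ, mul_div_cancel₀ _ (by linarith : A ≠ 0)] at this
        linarith
      have h8 := mul_le_mul_of_nonneg_left (mul_le_mul_of_nonneg_left h3 hCe.le) hC
      have h9 := mul_le_mul_of_nonneg_left hmass hζ.le
      linarith)
    hR0
    (fun i e => by
      rw [grad_pot]
      refine (abs_sum_le_sum_abs _ _).trans ?_
      have h1 : ∑ e', |ker a b r S e e' * win m L N i.2 (g i.1 e')| ≤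
          (∑ e', |ker a b r S e e'|) * M := by
        rw [sum_mul]
        refine sum_le_sum fun e' _ => ?_
        rw [abs_mul]
        exact mul_le_mul_of_nonneg_left (abs_win_le (hg1 _ _) i.2.2) (abs_nonneg _)
      refine h1.trans (mul_le_mul_of_nonneg_right ((hrow e).trans ?_) hM0.le)
      unfold rho1; linarith)
    (fun e => by
      rw [sum_prod_range N (fun j l => tau l ^ p * grad a b r (pot S m L N l (g j)) e ^ 2)]
      set ρ := ∑ e', |ker a b r S e e'| with hρ
      have hρ0 : 0 ≤ ρ := sum_nonneg fun _ _ => abs_nonneg _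
      have h1 : ∀ j, ∀ l ∈ range N, tau l ^ p * grad a b r (pot S m L N l (g j)) e ^ 2 ≤
          ∑ e', ρ * M ^ 2 * |ker a b r S e e'| * (tau l ^ p * nz (win m L N l (g j e'))) := by
        intro j l hl
        rw [grad_pot]
        have h2 := sum_sq_le_sum_mul_sum_of_sq_le_mul (s := (univ : Finset E))
          (r := fun e' => ker a b r S e e' * win m L N l (g j e'))
          (f := fun e' => |ker a b r S e e'|)
          (g := fun e' => |ker a b r S e e'| * (M ^ 2 * nz (win m L N l (g j e'))))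
          (fun _ _ => abs_nonneg _)
          (fun _ _ => mul_nonneg (abs_nonneg _) (mul_nonneg (sq_nonneg _) (nz_nonneg _)))
          (fun e' _ => by
            rw [mul_pow, ← mul_assoc, ← sq, sq_abs]
            refine mul_le_mul_of_nonneg_left ?_ (sq_nonneg _)
            unfold nz
            split_ifs with h
            · simp [h]
            · rw [mul_one, ← sq_abs]
              exact pow_le_pow_left₀ (abs_nonneg _) (abs_win_le (hg1 _ _) (mem_range.1 hl)) 2)
        refine (mul_le_mul_of_nonneg_left h2 (Real.rpow_nonneg (tau_pos l).le _)).trans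
          (le_of_eq ?_)
        rw [← hρ, mul_sum, mul_sum]
        refine sum_congr rfl fun e' _ => ?_
        ring
      refine (sum_le_sum fun j _ => sum_le_sum (h1 j)).trans ?_
      have h3 : ∑ j, ∑ l ∈ range N, ∑ e', ρ * M ^ 2 * |ker a b r S e e'| *
          (tau l ^ p * nz (win m L N l (g j e'))) =
          ∑ e', ρ * M ^ 2 * |ker a b r S e e'| *
            ∑ j, ∑ l ∈ range N, tau l ^ p * nz (win m L N l (g j e')) := by
        simp_rw [mul_sum]
        rw [sum_comm (s := univ) (t := univ) (f := fun e' j => ∑ l ∈ range N,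
          ρ * M ^ 2 * |ker a b r S e e'| * (tau l ^ p * nz (win m L N l (g j e'))))]
        exact sum_congr rfl fun j _ => sum_comm
      rw [h3]
      have h4 : ∑ e', ρ * M ^ 2 * |ker a b r S e e'| *
            ∑ j, ∑ l ∈ range N, tau l ^ p * nz (win m L N l (g j e')) ≤
          ∑ e', ρ * M ^ 2 * |ker a b r S e e'| :=
        sum_le_sum fun e' _ => mul_le_of_le_one_right (by positivity) ((hsparse e').trans hδ1)
      refine h4.trans ?_
      rw [← mul_sum, ← hρ]
      have h5 : ρ ≤ rho1 n := (hrow e).trans (by unfold rho1; linarith)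
      have h6 : (ρ * M) ^ 2 ≤ (rho1 n * M) ^ 2 :=
        pow_le_pow_left₀ (by positivity) (mul_le_mul_of_nonneg_right h5 hM0.le) 2
      change _ ≤ (rho1 n * M) ^ 2
      nlinarith)
    (le_add_of_nonneg_right (by positivity))
    (by
      have h1 : ζ * parT p ζ γ A m n = parR γ A m n ^ p * (2 * p) ^ p * 6 := by
        unfold parT; field_simp
      have h2 := mul_le_mul_of_nonneg_left hcardE
        (by positivity : 0 ≤ parR γ A m n ^ p * (2 * p) ^ p * 6)
      rw [mul_add, ← mul_assoc ζ, h1]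
      linarith)
    (by
      have h1 : Real.log (1 + parT p ζ γ A m n * (n : ℝ) ^ 2) ≤
          parT p ζ γ A m n + 2 * Real.log n := by
        have h2 : 1 + parT p ζ γ A m n * (n : ℝ) ^ 2 ≤ (1 + parT p ζ γ A m n) * (n : ℝ) ^ 2 := by
          nlinarith
        refine (Real.log_le_log (by positivity) h2).trans ?_
        rw [Real.log_mul (by positivity) (by positivity), Real.log_pow]
        have := Real.log_le_sub_one_of_pos (by positivity : 0 < 1 + parT p ζ γ A m n)
        push_cast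
        linarith
      have h3 : 0 ≤ Real.log (1 + parT p ζ γ A m n * (n : ℝ) ^ 2) :=
        Real.log_nonneg (le_add_of_nonneg_right (by positivity))
      refine (Real.rpow_le_rpow (by positivity)
        (mul_le_mul_of_nonneg_left h1 (by positivity)) hp0.le).trans ?_
      unfold parB
      linarith)
    (by linarith) (parD p ζ γ A m n)
    (by
      have h1 : Real.log (2 * Fintype.card E) ≤ 1 + 2 * Real.log n := by
        refine (Real.log_le_log (by positivity)
          (mul_le_mul_of_nonneg_left hcardE (by norm_num))).trans ?_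
        rw [Real.log_mul (by norm_num) (by positivity), Real.log_pow]
        have := Real.log_le_sub_one_of_pos (by norm_num : (0 : ℝ) < 2)
        push_cast
        linarith
      have h2 : (4 / ζ ^ 2 * parB p ζ γ A m n) * (parB p ζ γ A m n * (1 + 2 * Real.log n)) ≤
          parD p ζ γ A m n := by
        unfold parD
        push_cast
        linarith [Nat.le_ceil ((4 / ζ ^ 2 * parB p ζ γ A m n) *
          (parB p ζ γ A m n * (1 + 2 * Real.log n)))]
      have h3 := mul_le_mul_of_nonneg_right h2 (sq_nonneg ζ)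
      refine le_trans ((mul_le_mul_of_nonneg_left h1 (by positivity)).trans (le_of_eq ?_)) h3
      field_simp)
  have hd1 : (0 : ℝ) < parD p ζ γ A m n := by
    unfold parD; positivity
  refine ⟨F, parD p ζ γ A m n * mass p m L, mul_pos hd1 (by linarith), fun x y => ?_⟩
  by_cases hxy : x = y
  · subst hxy
    simp [Real.zero_rpow hp0.ne']
  · have h1 := hF ⟨(x, y), hxy⟩
    simp_rw [hgradp] at h1
    rw [← sum_div, hrp, le_div_iff₀ (hf _ _ hxy), div_le_iff₀ (hf _ _ hxy)] at h1
    simp only [ha, hb] at h1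
    constructor
    · refine le_trans (le_of_eq ?_) h1.1; ring
    · refine h1.2.trans (le_of_eq ?_); ring

end Vale.Agent.P249
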