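import Vale.Agent.P249.Loc

/-! A separation argument turning averaged bounds into bounds valid on every edge. -/

set_option linter.unusedSectionVars false
set_option linter.unusedSimpArgs false

namespace Vale.Agent.P249

open Finset

theorem convex_minimax {V E : Type*} [AddCommGroup V] [Module ℝ V] [Fintype E] [DecidableEq E]
    [Nonempty E] (A : Set V) (F : E → V → ℝ) (hF : ∀ e, ConvexOn ℝ A (F e))
    (hF0 : ∀ e S, 0 ≤ F e S) (c : ℝ)
    (h : ∀ ν : E → ℝ, (∀ e, 0 < ν e) → ∑ e, ν e = 1 → ∃ S ∈ A, ∑ e, ν e * F e S ≤ c) :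
    ∃ S ∈ A, ∀ e, F e S ≤ 2 * c + 1 := by
  set U : Set (E → ℝ) := {y | ∃ S ∈ A, ∀ e, F e S < y e} with hU
  have hcard : (0 : ℝ) < Fintype.card E := by exact_mod_cast Fintype.card_pos
  by_contra hcon
  have hy₀ : (fun _ : E => 2 * c + 1) ∉ U := by
    rintro ⟨S, hS, hlt⟩
    exact hcon ⟨S, hS, fun e => (hlt e).le⟩
  have hconv : Convex ℝ U := by
    rintro y ⟨S, hS, hy⟩ z ⟨T, hT, hz⟩ s t hs ht hst
    obtain ⟨e₀⟩ := (inferInstance : Nonempty E)
    refine ⟨s • S + t • T, (hF e₀).1 hS hT hs ht hst, fun e => ?_⟩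
    refine ((hF e).2 hS hT hs ht hst).trans_lt ?_
    simp only [smul_eq_mul, Pi.add_apply, Pi.smul_apply]
    rcases hs.eq_or_lt with rfl | hs
    · have : t = 1 := by linarith
      subst this
      simpa using hz e
    · have h1 := mul_lt_mul_of_pos_left (hy e) hs
      have h2 := mul_le_mul_of_nonneg_left (hz e).le ht
      linarith
  have hopen : IsOpen U := by
    have : U = ⋃ S ∈ A, ⋂ e, {y : E → ℝ | F e S < y e} := by
      ext y; simp [hU]
    rw [this]
    exact isOpen_biUnion fun S _ => isOpen_iInter_of_finite fun e =>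
      isOpen_lt continuous_const (continuous_apply e)
  obtain ⟨ℓ, hℓ⟩ := geometric_hahn_banach_open_point hconv hopen hy₀
  set lam : E → ℝ := fun e => - ℓ (Pi.single e 1) with hlam
  have hrep : ∀ y : E → ℝ, ℓ y = - ∑ e, lam e * y e := by
    intro y
    have : y = ∑ e, y e • (Pi.single e 1 : E → ℝ) := by
      ext e'; simp [Pi.single_apply]
    conv_lhs => rw [this]
    rw [map_sum, ← sum_neg_distrib]
    refine sum_congr rfl fun e _ => ?_
    rw [map_smul, hlam]
    simp [mul_comm]
  obtain ⟨S₁, hS₁, -⟩ := h (fun _ => 1 / Fintype.card E) (fun _ => by positivity) (by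
    rw [sum_const, card_univ, nsmul_eq_mul]; field_simp)
  have hlam0 : ∀ e, 0 ≤ lam e := by
    intro e
    by_contra hneg
    push Not at hneg
    set y₁ : E → ℝ := fun e => F e S₁ + 1 with hy₁
    set t : ℝ := (|ℓ (fun _ => 2 * c + 1) - ℓ y₁|) / (- lam e) with ht
    have ht0 : 0 ≤ t := div_nonneg (abs_nonneg _) (by linarith)
    have hmem : y₁ + t • (Pi.single e 1 : E → ℝ) ∈ U := by
      refine ⟨S₁, hS₁, fun e' => ?_⟩
      have : 0 ≤ t * (Pi.single e 1 : E → ℝ) e' := by
        refine mul_nonneg ht0 ?_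
        rw [Pi.single_apply]; split_ifs <;> norm_num
      simp only [Pi.add_apply, Pi.smul_apply, smul_eq_mul, hy₁]
      linarith
    have h1 := hℓ _ hmem
    rw [map_add, map_smul, smul_eq_mul] at h1
    have h2 : ℓ (Pi.single e 1) = - lam e := by simp [hlam]
    have h3 : t * (- lam e) = |ℓ (fun _ => 2 * c + 1) - ℓ y₁| := by
      rw [ht]; field_simp [hneg.ne]
    rw [h2, h3] at h1
    linarith [le_abs_self (ℓ (fun _ => 2 * c + 1) - ℓ y₁)]
  set L := ∑ e, lam e with hL
  have hL0 : 0 < L := by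
    rcases (sum_nonneg fun e _ => hlam0 e : 0 ≤ L).eq_or_lt with h0 | h0
    · exfalso
      have hz : ∀ e, lam e = 0 := fun e =>
        (sum_eq_zero_iff_of_nonneg fun e _ => hlam0 e).1 h0.symm e (mem_univ e)
      have := hℓ (fun e => F e S₁ + 1) ⟨S₁, hS₁, fun e => by linarith⟩
      rw [hrep, hrep] at this
      simp [hz] at this
    · exact h0
  obtain ⟨S, hS, hle⟩ := h (fun e => lam e / (2 * L) + 1 / (2 * Fintype.card E))
    (fun e => add_pos_of_nonneg_of_pos (div_nonneg (hlam0 e) (by positivity)) (by positivity))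
    (by
      rw [sum_add_distrib, ← sum_div, ← hL, sum_const, card_univ, nsmul_eq_mul]
      field_simp
      norm_num)
  have h1 : ∑ e, lam e * F e S ≤ 2 * L * c := by
    have h2 : ∑ e, lam e / (2 * L) * F e S ≤
        ∑ e, (lam e / (2 * L) + 1 / (2 * Fintype.card E)) * F e S :=
      sum_le_sum fun e _ => mul_le_mul_of_nonneg_right (le_add_of_nonneg_right (by positivity))
        (hF0 e S)
    have h3 : ∑ e, lam e / (2 * L) * F e S = (∑ e, lam e * F e S) / (2 * L) := by
      rw [sum_div]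
      refine sum_congr rfl fun e _ => ?_
      ring
    rw [h3] at h2
    have := h2.trans hle
    rwa [div_le_iff₀ (by positivity), mul_comm] at this
  have h4 := hℓ (fun e => F e S + 1 / 2) ⟨S, hS, fun e => by linarith⟩
  rw [hrep, hrep] at h4
  simp only [mul_add, sum_add_distrib, ← sum_mul, ← hL] at h4
  nlinarith

section Proj

variable {ι E : Type*} [Fintype ι] [DecidableEq ι] [Fintype E]

lemma ker_combo (a b : E → ι) (r : E → ℝ) (S T : ι → E → ℝ) (s t : ℝ) (e e' : E) :
    ker a b r (s • S + t • T) e e' = s * ker a b r S e e' + t * ker a b r T e e' := by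
  unfold ker
  simp only [Pi.add_apply, Pi.smul_apply, smul_eq_mul]
  ring

/-- A projection onto gradients with small absolute row sums on every edge and small
quadratic error on every edge, for a prescribed normalised family of vectors. -/
theorem exists_good_projection [Nonempty E] (a b : E → ι) (r : E → ℝ) (hr : ∀ e, 0 < r e)
    (hcomp : ∀ x y, x ≠ y → ∃ e, a e = x ∧ b e = y) (hinc : ∀ x, ∃ e, a e = x)
    {T : Type*} [Fintype T] (g : T → E → ℝ) (hg : ∀ e, ∑ t, g t e ^ 2 ≤ 1) :
    ∃ S : ι → E → ℝ, Adm a b r S ∧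
      (∀ e, ∑ e', |ker a b r S e e'| ≤ 5 * (12 * Real.log (Fintype.card ι) + 6)) ∧
      (∀ e, ∑ t, (∑ e', ker a b r S e e' * g t e' - g t e) ^ 2 ≤ 5) := by
  classical
  set β := 12 * Real.log (Fintype.card ι) + 6 with hβ
  have hβ0 : 0 < β := by
    have := Real.log_natCast_nonneg (Fintype.card ι)
    linarith
  set A : Set (ι → E → ℝ) := {S | Adm a b r S} with hA
  have hAconv : Convex ℝ A := by
    intro S hS T hT s t hs ht hst h e
    simp_rw [ker_combo, add_mul, sum_add_distrib, mul_assoc, ← mul_sum]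
    rw [hS h e, hT h e, ← add_mul, hst, one_mul]
  set F : E → (ι → E → ℝ) → ℝ := fun e S => (∑ e', |ker a b r S e e'|) / β +
    ∑ t, (∑ e', ker a b r S e e' * g t e' - g t e) ^ 2 with hF
  have hF1 : ∀ e S, 0 ≤ (∑ e', |ker a b r S e e'|) / β := fun e S =>
    div_nonneg (sum_nonneg fun _ _ => abs_nonneg _) hβ0.le
  have hF2 : ∀ e S, 0 ≤ ∑ t, (∑ e', ker a b r S e e' * g t e' - g t e) ^ 2 := fun e S =>
    sum_nonneg fun _ _ => sq_nonneg _
  have hconv : ∀ e, ConvexOn ℝ A (F e) := by
    refine fun e => ⟨hAconv, ?_⟩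
    intro S _ S' _ s t hs ht hst
    simp only [hF, smul_eq_mul, ker_combo]
    have h1 : ∑ e', |s * ker a b r S e e' + t * ker a b r S' e e'| ≤
        s * ∑ e', |ker a b r S e e'| + t * ∑ e', |ker a b r S' e e'| := by
      rw [mul_sum, mul_sum, ← sum_add_distrib]
      refine sum_le_sum fun e' _ => (abs_add_le _ _).trans (le_of_eq ?_)
      rw [abs_mul, abs_mul, abs_of_nonneg hs, abs_of_nonneg ht]
    have h2 : ∑ τ, (∑ e', (s * ker a b r S e e' + t * ker a b r S' e e') * g τ e' - g τ e) ^ 2 ≤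
        s * ∑ τ, (∑ e', ker a b r S e e' * g τ e' - g τ e) ^ 2 +
        t * ∑ τ, (∑ e', ker a b r S' e e' * g τ e' - g τ e) ^ 2 := by
      rw [mul_sum, mul_sum, ← sum_add_distrib]
      refine sum_le_sum fun τ _ => ?_
      simp_rw [add_mul, sum_add_distrib, mul_assoc, ← mul_sum]
      set u := ∑ e', ker a b r S e e' * g τ e'
      set v := ∑ e', ker a b r S' e e' * g τ e'
      have ht' : t = 1 - s := by linarith
      subst ht'
      nlinarith [mul_nonneg (mul_nonneg hs ht) (sq_nonneg (u - v))]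
    have h3 := div_le_div_of_nonneg_right h1 hβ0.le
    rw [add_div, mul_div_assoc, mul_div_assoc] at h3
    linarith
  have havg : ∀ ν : E → ℝ, (∀ e, 0 < ν e) → ∑ e, ν e = 1 → ∃ S ∈ A, ∑ e, ν e * F e S ≤ 2 := by
    intro ν hν hsum
    obtain ⟨S, hadm, hsym, hrow⟩ := exists_projection a b r ν hr hν hsum hcomp hinc
    refine ⟨S, hadm, ?_⟩
    simp only [hF, mul_add, sum_add_distrib]
    have h1 : ∑ e, ν e * ((∑ e', |ker a b r S e e'|) / β) ≤ 1 := by
      simp_rw [← mul_div_assoc]
      rw [← sum_div, div_le_one hβ0]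
      exact hrow
    have h2 : ∑ e, ν e * ∑ t, (∑ e', ker a b r S e e' * g t e' - g t e) ^ 2 ≤ 1 := by
      simp_rw [mul_sum]
      rw [sum_comm]
      refine (sum_le_sum fun t _ =>
        contraction a b r ν (fun e => (hν e).le) S hadm hsym (g t)).trans ?_
      rw [sum_comm, ← hsum]
      refine sum_le_sum fun e _ => ?_
      rw [← mul_sum]
      exact mul_le_of_le_one_right (hν e).le (hg e)
    linarith
  obtain ⟨S, hS, hle⟩ := convex_minimax A F hconv
    (fun e S => add_nonneg (hF1 e S) (hF2 e S)) 2 havg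
  refine ⟨S, hS, fun e => ?_, fun e => ?_⟩
  · have h1 := hle e
    have h2 : (∑ e', |ker a b r S e e'|) / β ≤ 5 := by
      have := hF2 e S
      simp only [hF] at h1
      linarith
    rwa [div_le_iff₀ hβ0] at h2
  · have h1 := hle e
    have := hF1 e S
    simp only [hF] at h1
    linarith

end Proj

end Vale.Agent.P249
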