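import Vale.Agent.P249.Window
import Vale.Agent.P249.Minimax

/-! The commutator error of the windowed coordinates. -/

set_option linter.unusedSectionVars false
set_option linter.unusedSimpArgs false

namespace Vale.Agent.P249

open Finset

section Err

variable {ι E : Type*} [Fintype E]

/-- Defect of the projection on a truncated vector. -/
noncomputable def Gk (a b : E → ι) (r : E → ℝ) (S : ι → E → ℝ) (g : E → ℝ) (k : ℕ) (e : E) : ℝ :=
  ∑ e', ker a b r S e e' * (g e' * chi k (g e')) - g e * chi k (g e)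

/-- The potential attached to a windowed vector. -/
noncomputable def pot (S : ι → E → ℝ) (m L N l : ℕ) (g : E → ℝ) (x : ι) : ℝ :=
  ∑ e', S x e' * win m L N l (g e')

lemma grad_pot (a b : E → ι) (r : E → ℝ) (S : ι → E → ℝ) (m L N l : ℕ) (g : E → ℝ) (e : E) :
    grad a b r (pot S m L N l g) e = ∑ e', ker a b r S e e' * win m L N l (g e') := by
  classical
  unfold ker grad pot
  rw [← sum_sub_distrib, sum_div]
  refine sum_congr rfl fun e' _ => ?_
  ring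

lemma err_eq (a b : E → ι) (r : E → ℝ) (S : ι → E → ℝ) (m L N l : ℕ) (g : E → ℝ) (e : E) :
    grad a b r (pot S m L N l g) e - win m L N l (g e) =
      (tau l)⁻¹ * ∑ k ∈ range N, psi m L ((l : ℤ) - k) * Gk a b r S g k e := by
  rw [grad_pot]
  unfold win Gk
  simp_rw [mul_sub, sum_sub_distrib, mul_sub, mul_sum]
  congr 1
  rw [sum_comm]
  refine sum_congr rfl fun k _ => sum_congr rfl fun e' _ => ?_
  ring

lemma err_mass {p : ℝ} (hp : 1 ≤ p) (a b : E → ι) (r : E → ℝ) (S : ι → E → ℝ) {m L N : ℕ}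
    (hL : 1 ≤ L) (g : E → ℝ) (e : E) :
    ∑ l ∈ range N, tau l ^ p * |grad a b r (pot S m L N l g) e - win m L N l (g e)| ^ p ≤
      3 * (L * (1 / L) ^ p) * (∑ k ∈ range N, |Gk a b r S g k e|) ^ p := by
  refine le_trans (le_of_eq (sum_congr rfl fun l _ => ?_))
    (young hp (m := m) (N := N) hL (fun k => Gk a b r S g k e))
  rw [err_eq, ← Real.mul_rpow (tau_pos l).le (abs_nonneg _), abs_mul, abs_inv,
    abs_of_pos (tau_pos l), ← mul_assoc, mul_inv_cancel₀ (tau_pos l).ne', one_mul]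

lemma Gk_alt (a b : E → ι) (r : E → ℝ) (S : ι → E → ℝ) (hS : Adm a b r S) (h : ι → ℝ)
    (k : ℕ) (e : E) :
    Gk a b r S (grad a b r h) k e =
      -(∑ e', ker a b r S e e' * (grad a b r h e' * (1 - chi k (grad a b r h e'))) -
        grad a b r h e * (1 - chi k (grad a b r h e))) := by
  unfold Gk
  simp_rw [mul_sub, mul_one, sum_sub_distrib]
  rw [hS h e]
  ring

lemma abs_low_le (k : ℕ) (y : ℝ) : |y * (1 - chi k y)| ≤ tau k := by
  unfold chi
  split_ifs with h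
  · simpa using (tau_pos k).le
  · simpa using not_lt.1 h

lemma abs_Gk_le (a b : E → ι) (r : E → ℝ) (S : ι → E → ℝ) (hS : Adm a b r S) (h : ι → ℝ)
    {ρ : ℝ} (k : ℕ) (e : E) (hρ : ∑ e', |ker a b r S e e'| ≤ ρ) :
    |Gk a b r S (grad a b r h) k e| ≤ (ρ + 1) * tau k := by
  rw [Gk_alt a b r S hS, abs_neg]
  refine (abs_sub _ _).trans ?_
  have h1 := abs_low_le k (grad a b r h e)
  have h2 : |∑ e', ker a b r S e e' * (grad a b r h e' * (1 - chi k (grad a b r h e')))| ≤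
      ρ * tau k := by
    refine (abs_sum_le_sum_abs _ _).trans (le_trans ?_
      (mul_le_mul_of_nonneg_right hρ (tau_pos k).le))
    rw [sum_mul]
    refine sum_le_sum fun e' _ => ?_
    rw [abs_mul]
    exact mul_le_mul_of_nonneg_left (abs_low_le _ _) (abs_nonneg _)
  linarith

lemma sum_tau_chi {α : ℝ} (hα : 0 < α) (N : ℕ) (y : ℝ) :
    ∑ k ∈ range N, tau k ^ α * chi k y ≤ gc α * |y| ^ α := by
  refine le_trans (sum_le_sum fun k _ => ?_) (sum_tau_down hα (abs_nonneg y) N)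
  unfold chi
  split_ifs with h1 h2 h2
  · rw [mul_one]
  · exact absurd h1.le h2
  · rw [mul_zero]; exact Real.rpow_nonneg (tau_pos k).le _
  · rw [mul_zero]

lemma chi_sq (k : ℕ) (y : ℝ) : chi k y ^ 2 = chi k y := by
  unfold chi; split_ifs <;> norm_num

lemma chi_nonneg (k : ℕ) (y : ℝ) : 0 ≤ chi k y := by
  unfold chi; split_ifs <;> norm_num

lemma high_l1 {p : ℝ} (hp : 1 < p) (N : ℕ) (y : ℝ) :
    ∑ k ∈ range N, tau k ^ (p - 1) * |y * chi k y| ≤ gc (p - 1) * |y| ^ p := by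
  have h := mul_le_mul_of_nonneg_left (sum_tau_chi (by linarith : 0 < p - 1) N y) (abs_nonneg y)
  have h3 : |y| ^ p = |y| ^ (p - 1) * |y| := by
    rw [← Real.rpow_add_one' (abs_nonneg y) (by linarith)]
    ring_nf
  rw [mul_sum] at h
  rw [h3]
  refine le_trans (le_of_eq (sum_congr rfl fun k _ => ?_)) (h.trans (le_of_eq (by ring)))
  rw [abs_mul, abs_of_nonneg (chi_nonneg k y)]
  ring

lemma high_l2 {p : ℝ} (hp : 2 < p) (N : ℕ) (y : ℝ) :
    ∑ k ∈ range N, tau k ^ (p - 2) * (y * chi k y) ^ 2 ≤ gc (p - 2) * |y| ^ p := by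
  have h := mul_le_mul_of_nonneg_left (sum_tau_chi (by linarith : 0 < p - 2) N y) (sq_nonneg y)
  rw [mul_left_comm, sq_mul_abs_rpow (by linarith), mul_sum] at h
  refine le_trans (le_of_eq (sum_congr rfl fun k _ => ?_)) h
  rw [mul_pow, chi_sq]
  ring

lemma low_l2 {p : ℝ} (hp0 : 0 < p) (hp : p < 2) (N : ℕ) (y : ℝ) :
    ∑ k ∈ range N, tau k ^ (-(2 - p)) * (y * (1 - chi k y)) ^ 2 ≤ gc (2 - p) * |y| ^ p := by
  rcases eq_or_ne y 0 with rfl | h0
  · simp [Real.zero_rpow hp0.ne']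
  have h := mul_le_mul_of_nonneg_left (sum_tau_up (by linarith : 0 < 2 - p) (abs_pos.2 h0) N)
    (sq_nonneg y)
  rw [mul_left_comm, show -(2 - p) = p - 2 by ring, sq_mul_abs_rpow hp0, mul_sum] at h
  rw [show -(2 - p) = p - 2 by ring]
  refine le_trans (sum_le_sum fun k _ => ?_) h
  unfold chi
  split_ifs with h1 h2 h2
  · exact absurd h1 (not_lt.2 h2)
  · simp
  · simp [mul_comm]
  · exact absurd (not_lt.1 h1) h2

lemma Gk_l1 {p ρ : ℝ} (hp : 1 < p) {J : Type*} [Fintype J] (a b : E → ι) (r : E → ℝ)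
    (S : ι → E → ℝ) (g : J → E → ℝ) (hg : ∀ e, ∑ j, |g j e| ^ p = 1) (N : ℕ) (e : E)
    (hρ : ∑ e', |ker a b r S e e'| ≤ ρ) :
    ∑ j, ∑ k ∈ range N, tau k ^ (p - 1) * |Gk a b r S (g j) k e| ≤ gc (p - 1) * (ρ + 1) := by
  have hgc := gc_pos (by linarith : 0 < p - 1)
  have h1 : ∀ j, ∑ k ∈ range N, tau k ^ (p - 1) * |Gk a b r S (g j) k e| ≤
      ∑ e', |ker a b r S e e'| * (gc (p - 1) * |g j e'| ^ p) + gc (p - 1) * |g j e| ^ p := by
    intro j
    have h2 : ∀ k, tau k ^ (p - 1) * |Gk a b r S (g j) k e| ≤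
        ∑ e', |ker a b r S e e'| * (tau k ^ (p - 1) * |g j e' * chi k (g j e')|) +
          tau k ^ (p - 1) * |g j e * chi k (g j e)| := by
      intro k
      unfold Gk
      have h3 := (abs_sub (∑ e', ker a b r S e e' * (g j e' * chi k (g j e')))
        (g j e * chi k (g j e))).trans (add_le_add (abs_sum_le_sum_abs _ _) le_rfl)
      refine (mul_le_mul_of_nonneg_left h3 (Real.rpow_nonneg (tau_pos k).le _)).trans
        (le_of_eq ?_)
      rw [mul_add, mul_sum]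
      congr 1
      refine sum_congr rfl fun e' _ => ?_
      rw [abs_mul]
      ring
    refine (sum_le_sum fun k _ => h2 k).trans ?_
    rw [sum_add_distrib, sum_comm]
    refine add_le_add (sum_le_sum fun e' _ => ?_) (high_l1 hp N _)
    rw [← mul_sum]
    exact mul_le_mul_of_nonneg_left (high_l1 hp N _) (abs_nonneg _)
  refine (sum_le_sum fun j _ => h1 j).trans ?_
  rw [sum_add_distrib, sum_comm, ← mul_sum, hg e]
  simp_rw [← mul_sum, hg, mul_one, ← sum_mul]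
  nlinarith

end Err

section Two

variable {ι E : Type*} [Fintype ι] [DecidableEq ι] [Fintype E]

theorem exists_good_projection_two [Nonempty E] (a b : E → ι) (r : E → ℝ) (hr : ∀ e, 0 < r e)
    (hcomp : ∀ x y, x ≠ y → ∃ e, a e = x ∧ b e = y) (hinc : ∀ x, ∃ e, a e = x)
    {J : Type*} [Fintype J] (N : ℕ) (μ₁ μ₂ : ℕ → ℝ) (hμ₁ : ∀ k, 0 ≤ μ₁ k) (hμ₂ : ∀ k, 0 ≤ μ₂ k)
    (g₁ g₂ : J → ℕ → E → ℝ) {c₁ c₂ : ℝ} (hc₁ : 0 < c₁) (hc₂ : 0 < c₂)
    (hg₁ : ∀ e, ∑ j, ∑ k ∈ range N, μ₁ k * g₁ j k e ^ 2 ≤ c₁)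
    (hg₂ : ∀ e, ∑ j, ∑ k ∈ range N, μ₂ k * g₂ j k e ^ 2 ≤ c₂) :
    ∃ S : ι → E → ℝ, Adm a b r S ∧
      (∀ e, ∑ e', |ker a b r S e e'| ≤ 5 * (12 * Real.log (Fintype.card ι) + 6)) ∧
      (∀ e, ∑ j, ∑ k ∈ range N, μ₁ k * (∑ e', ker a b r S e e' * g₁ j k e' - g₁ j k e) ^ 2
        ≤ 10 * c₁) ∧
      (∀ e, ∑ j, ∑ k ∈ range N, μ₂ k * (∑ e', ker a b r S e e' * g₂ j k e' - g₂ j k e) ^ 2
        ≤ 10 * c₂) := by
  set g : (J × Fin N) ⊕ (J × Fin N) → E → ℝ := Sum.elim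
    (fun t e => Real.sqrt (μ₁ t.2 / (2 * c₁)) * g₁ t.1 t.2 e)
    (fun t e => Real.sqrt (μ₂ t.2 / (2 * c₂)) * g₂ t.1 t.2 e) with hg
  have key : ∀ (μ : ℕ → ℝ) (c : ℝ), (∀ k, 0 ≤ μ k) → 0 < c → ∀ u : J → ℕ → ℝ,
      ∑ t : J × Fin N, (Real.sqrt (μ t.2 / (2 * c)) * u t.1 t.2) ^ 2 =
        (∑ j, ∑ k ∈ range N, μ k * u j k ^ 2) / (2 * c) := by
    intro μ c hμ hc u
    rw [Fintype.sum_prod_type, sum_div]
    refine sum_congr rfl fun j _ => ?_
    rw [sum_div, ← Fin.sum_univ_eq_sum_range (fun k => μ k * u j k ^ 2 / (2 * c))]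
    refine sum_congr rfl fun k _ => ?_
    rw [mul_pow, Real.sq_sqrt (div_nonneg (hμ _) (by positivity))]
    ring
  obtain ⟨S, hS, hrow, hq⟩ := exists_good_projection a b r hr hcomp hinc g (fun e => by
    rw [Fintype.sum_sum_type]
    simp only [hg, Sum.elim_inl, Sum.elim_inr]
    rw [key μ₁ c₁ hμ₁ hc₁ (fun j k => g₁ j k e), key μ₂ c₂ hμ₂ hc₂ (fun j k => g₂ j k e)]
    have h1 : (∑ j, ∑ k ∈ range N, μ₁ k * g₁ j k e ^ 2) / (2 * c₁) ≤ 1 / 2 := by
      rw [div_le_iff₀ (by positivity)]; linarith [hg₁ e]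
    have h2 : (∑ j, ∑ k ∈ range N, μ₂ k * g₂ j k e ^ 2) / (2 * c₂) ≤ 1 / 2 := by
      rw [div_le_iff₀ (by positivity)]; linarith [hg₂ e]
    linarith)
  have hq' : ∀ e, (∑ j, ∑ k ∈ range N,
      μ₁ k * (∑ e', ker a b r S e e' * g₁ j k e' - g₁ j k e) ^ 2) / (2 * c₁) +
      (∑ j, ∑ k ∈ range N,
      μ₂ k * (∑ e', ker a b r S e e' * g₂ j k e' - g₂ j k e) ^ 2) / (2 * c₂) ≤ 5 := by
    intro e
    have := hq e
    rw [Fintype.sum_sum_type] at this
    simp only [hg, Sum.elim_inl, Sum.elim_inr] at this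
    simp_rw [mul_left_comm (ker a b r S e _), ← mul_sum, ← mul_sub] at this
    rwa [key μ₁ c₁ hμ₁ hc₁ (fun j k => ∑ e', ker a b r S e e' * g₁ j k e' - g₁ j k e),
      key μ₂ c₂ hμ₂ hc₂ (fun j k => ∑ e', ker a b r S e e' * g₂ j k e' - g₂ j k e)] at this
  have hn : ∀ (μ : ℕ → ℝ), (∀ k, 0 ≤ μ k) → ∀ u : J → ℕ → ℝ,
      0 ≤ ∑ j, ∑ k ∈ range N, μ k * u j k ^ 2 := fun μ hμ u =>
    sum_nonneg fun j _ => sum_nonneg fun k _ => mul_nonneg (hμ k) (sq_nonneg _)
  refine ⟨S, hS, hrow, fun e => ?_, fun e => ?_⟩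
  · have h1 := hq' e
    have h2 := div_nonneg (hn μ₂ hμ₂
      (fun j k => ∑ e', ker a b r S e e' * g₂ j k e' - g₂ j k e)) (by positivity : 0 ≤ 2 * c₂)
    have h3 := (le_add_of_nonneg_right h2).trans h1
    rw [div_le_iff₀ (by positivity)] at h3
    linarith
  · have h1 := hq' e
    have h2 := div_nonneg (hn μ₁ hμ₁
      (fun j k => ∑ e', ker a b r S e e' * g₁ j k e' - g₁ j k e)) (by positivity : 0 ≤ 2 * c₁)
    have h3 := (le_add_of_nonneg_left h2).trans h1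
    rw [div_le_iff₀ (by positivity)] at h3
    linarith

end Two

/-- The conclusion of the error analysis. -/
def ErrBound (p c₁ c₂ Ce : ℝ) : Prop :=
  ∀ (ι E J : Type) [Fintype ι] [DecidableEq ι] [Fintype E] [Nonempty E] [Fintype J]
    (a b : E → ι) (r : E → ℝ), (∀ e, 0 < r e) → (∀ x y, x ≠ y → ∃ e, a e = x ∧ b e = y) →
    (∀ x, ∃ e, a e = x) → ∀ f : J → ι → ℝ, (∀ e, ∑ j, |grad a b r (f j) e| ^ p = 1) →
    ∀ m L N : ℕ, 1 ≤ L → ∃ S : ι → E → ℝ,
      (∀ e, ∑ e', |ker a b r S e e'| ≤ 5 * (12 * Real.log (Fintype.card ι) + 6)) ∧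
      ∀ e, Real.exp (c₁ * ∑ j, ∑ l ∈ range N, tau l ^ p *
          (grad a b r (pot S m L N l (grad a b r (f j))) e - win m L N l (grad a b r (f j) e)) ^ 2) *
        (1 + c₂ * ∑ j, ∑ l ∈ range N, tau l ^ p *
          |grad a b r (pot S m L N l (grad a b r (f j))) e - win m L N l (grad a b r (f j) e)| ^ p)
        ≤ Ce * (1 + L * (1 / L) ^ p * (5 * (12 * Real.log (Fintype.card ι) + 6) + 1) ^ |p - 2|)

lemma abs_le_one_of_sum {p : ℝ} (hp : 0 < p) {J : Type*} [Fintype J] (y : J → ℝ)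
    (h : ∑ j, |y j| ^ p = 1) (j : J) : |y j| ≤ 1 := by
  have h1 : |y j| ^ p ≤ 1 := h ▸ single_le_sum (f := fun j => |y j| ^ p)
    (fun j _ => Real.rpow_nonneg (abs_nonneg _) _) (mem_univ j)
  by_contra h2
  exact absurd h1 (not_le.2 (Real.one_lt_rpow (not_le.1 h2) hp))

theorem errBound_small {p c₂ : ℝ} (hp : 1 < p) (hp2 : p < 2) (hc₂ : 0 ≤ c₂) :
    ∃ Ce : ℝ, 0 < Ce ∧ ErrBound p 0 c₂ Ce := by
  have hp0 : 0 < p := by linarith
  have hg1 := gc_pos (by linarith : 0 < 2 - p)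
  have hg2 := gc_pos (by linarith : 0 < p - 1)
  have hg3 := gc_pos (by linarith : 0 < (2 - p) / 2)
  set A := (gc ((2 - p) / 2) + gc (p - 1)) ^ p with hA
  have hA0 : 0 < A := by positivity
  refine ⟨1 + c₂ * (3 * A * (10 * gc (2 - p) + gc (p - 1))), by positivity, ?_⟩
  intro ι E J _ _ _ _ _ a b r hr hcomp hinc f hf m L N hL
  obtain ⟨S, hS, hrow, hq, -⟩ := exists_good_projection_two a b r hr hcomp hinc N
    (fun k => tau k ^ (-(2 - p))) (fun k => 0) (fun k => Real.rpow_nonneg (tau_pos k).le _)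
    (fun k => le_rfl)
    (fun j k e => grad a b r (f j) e * (1 - chi k (grad a b r (f j) e))) (fun j k e => 0)
    hg1 one_pos (fun e => by
      refine (sum_le_sum fun j _ => low_l2 hp0 hp2 N _).trans (le_of_eq ?_)
      rw [← mul_sum, hf e, mul_one]) (fun e => by simp)
  refine ⟨S, hrow, fun e => ?_⟩
  set ρ := 5 * (12 * Real.log (Fintype.card ι) + 6) with hρ
  have hρ0 : 0 < ρ + 1 := by
    have := Real.log_natCast_nonneg (Fintype.card ι)
    linarith
  have h1 : ∑ j, ∑ l ∈ range N, tau l ^ p *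
      |grad a b r (pot S m L N l (grad a b r (f j))) e - win m L N l (grad a b r (f j) e)| ^ p ≤
      3 * (L * (1 / L) ^ p) * (A * ((ρ + 1) ^ (2 - p) * (10 * gc (2 - p)) +
        (ρ + 1) ^ (1 - p) * (gc (p - 1) * (ρ + 1)))) := by
    refine (sum_le_sum fun j _ => err_mass hp.le a b r S hL _ e).trans ?_
    rw [← mul_sum]
    refine mul_le_mul_of_nonneg_left ?_ (by positivity)
    refine (sum_le_sum fun j _ => H_small hp hp2 hρ0 N _ (fun k => abs_nonneg _)).trans ?_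
    rw [← mul_sum, sum_add_distrib, ← mul_sum, ← mul_sum]
    refine mul_le_mul_of_nonneg_left (add_le_add (mul_le_mul_of_nonneg_left ?_ (by positivity))
      (mul_le_mul_of_nonneg_left ?_ (by positivity))) hA0.le
    · refine le_trans (le_of_eq ?_) (hq e)
      refine sum_congr rfl fun j _ => sum_congr rfl fun k _ => ?_
      rw [sq_abs, Gk_alt a b r S hS, neg_sq]
    · exact Gk_l1 hp a b r S (fun j => grad a b r (f j)) hf N e (hrow e)
  have h2 : (ρ + 1) ^ (1 - p) * (gc (p - 1) * (ρ + 1)) = (ρ + 1) ^ (2 - p) * gc (p - 1) := by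
    rw [show 2 - p = (1 - p) + 1 by ring, Real.rpow_add_one hρ0.ne']
    ring
  rw [h2] at h1
  rw [zero_mul, Real.exp_zero, one_mul, abs_sub_comm, abs_of_pos (by linarith : 0 < 2 - p)]
  have h3 := mul_le_mul_of_nonneg_left h1 hc₂
  have h4 : 0 ≤ L * (1 / L : ℝ) ^ p * (ρ + 1) ^ (2 - p) := by positivity
  have h5 : 0 ≤ c₂ * (3 * A * (10 * gc (2 - p) + gc (p - 1))) := by positivity
  nlinarith

theorem errBound_large {p c₁ c₂ : ℝ} (hp : 2 < p) (hc₁ : 0 ≤ c₁) (hc₂ : 0 ≤ c₂) :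
    ∃ Ce : ℝ, 0 < Ce ∧ ErrBound p c₁ c₂ Ce := by
  have hp0 : 0 < p := by linarith
  have hg1 := gc_pos (by linarith : 0 < p - 2)
  have hg2 := gc_pos one_pos
  have hg3 := gc_pos (by linarith : 0 < (p - 2) / 2)
  set A := (gc 1 + gc ((p - 2) / 2)) ^ p with hA
  have hA0 : 0 < A := by positivity
  refine ⟨Real.exp (c₁ * (10 * gc (p - 2))) * (1 + c₂ * (3 * A * (10 * gc (p - 2)))),
    by positivity, ?_⟩
  intro ι E J _ _ _ _ _ a b r hr hcomp hinc f hf m L N hL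
  obtain ⟨S, hS, hrow, hq, hv⟩ := exists_good_projection_two a b r hr hcomp hinc N
    (fun k => tau k ^ (p - 2)) (fun k => tau k ^ p) (fun k => Real.rpow_nonneg (tau_pos k).le _)
    (fun k => Real.rpow_nonneg (tau_pos k).le _)
    (fun j k e => grad a b r (f j) e * chi k (grad a b r (f j) e))
    (fun j l e => win m L N l (grad a b r (f j) e))
    hg1 hg1 (fun e => by
      refine (sum_le_sum fun j _ => high_l2 hp N _).trans (le_of_eq ?_)
      rw [← mul_sum, hf e, mul_one]) (fun e => by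
      refine (sum_le_sum fun j _ => win_sq_mass hp
        (abs_le_one_of_sum hp0 (fun j => grad a b r (f j) e) (hf e) j)).trans (le_of_eq ?_)
      rw [← mul_sum, hf e, mul_one])
  refine ⟨S, hrow, fun e => ?_⟩
  set ρ := 5 * (12 * Real.log (Fintype.card ι) + 6) with hρ
  have hρ0 : 0 < ρ + 1 := by
    have := Real.log_natCast_nonneg (Fintype.card ι)
    linarith
  have h1 : ∑ j, ∑ l ∈ range N, tau l ^ p *
      |grad a b r (pot S m L N l (grad a b r (f j))) e - win m L N l (grad a b r (f j) e)| ^ p ≤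
      3 * (L * (1 / L) ^ p) * (A * ((ρ + 1) ^ (p - 2) * (10 * gc (p - 2)))) := by
    refine (sum_le_sum fun j _ => err_mass (by linarith) a b r S hL _ e).trans ?_
    rw [← mul_sum]
    refine mul_le_mul_of_nonneg_left ?_ (by positivity)
    refine (sum_le_sum fun j _ => H_large hp hρ0 N _ (fun k => abs_nonneg _)
      (fun k => abs_Gk_le a b r S hS (f j) k e (hrow e))).trans ?_
    rw [← mul_sum, ← mul_sum]
    refine mul_le_mul_of_nonneg_left (mul_le_mul_of_nonneg_left ?_ (by positivity)) hA0.le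
    refine le_trans (le_of_eq ?_) (hq e)
    refine sum_congr rfl fun j _ => sum_congr rfl fun k _ => ?_
    rw [sq_abs]
    rfl
  have h2 : ∑ j, ∑ l ∈ range N, tau l ^ p *
      (grad a b r (pot S m L N l (grad a b r (f j))) e - win m L N l (grad a b r (f j) e)) ^ 2 ≤
      10 * gc (p - 2) := by
    simp_rw [grad_pot]
    exact hv e
  rw [abs_of_pos (by linarith : 0 < p - 2), mul_assoc]
  refine mul_le_mul (Real.exp_le_exp.2 (mul_le_mul_of_nonneg_left h2 hc₁)) ?_ ?_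
    (Real.exp_pos _).le
  · have h3 := mul_le_mul_of_nonneg_left h1 hc₂
    have h4 : 0 ≤ L * (1 / L : ℝ) ^ p * (ρ + 1) ^ (p - 2) := by positivity
    have h5 : 0 ≤ c₂ * (3 * A * (10 * gc (p - 2))) := by positivity
    nlinarith
  · refine add_nonneg zero_le_one (mul_nonneg hc₂ (sum_nonneg fun j _ => sum_nonneg fun l _ =>
      mul_nonneg (Real.rpow_nonneg (tau_pos l).le _) (Real.rpow_nonneg (abs_nonneg _) _)))

end Vale.Agent.P249
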