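import Mathlib

/-! Isometric embeddings of finite subsets of `ℓ_p` need quadratic dimension for `p ≠ 2`. -/

set_option linter.unusedSectionVars false
set_option linter.unusedSimpArgs false

namespace Vale.Agent.P249

open Finset

lemma mid_le {p : ℝ} (hp : 1 < p) (α β : ℝ) :
    |α - β| ^ p ≤ 2 ^ p * ((|α| ^ p + |β| ^ p) / 2) ∧
      (|α - β| ^ p = 2 ^ p * ((|α| ^ p + |β| ^ p) / 2) → β = -α) := by
  have hp0 : 0 < p := by linarith
  have h1 : |α - β| ^ p ≤ 2 ^ p * (1 / 2 * |α| + 1 / 2 * |β|) ^ p := by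
    rw [← Real.mul_rpow (by norm_num) (by positivity)]
    exact Real.rpow_le_rpow (abs_nonneg _) (by linarith [abs_sub α β]) hp0.le
  have h2p : (0 : ℝ) < 2 ^ p := by positivity
  constructor
  · have hc := (convexOn_rpow hp.le).2 (Set.mem_Ici.2 (abs_nonneg α))
      (Set.mem_Ici.2 (abs_nonneg β)) (by norm_num : (0 : ℝ) ≤ 1 / 2)
      (by norm_num : (0 : ℝ) ≤ 1 / 2) (by norm_num)
    simp only [smul_eq_mul] at hc
    refine h1.trans (mul_le_mul_of_nonneg_left (by linarith) h2p.le)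
  · intro h
    by_cases hab : |α| = |β|
    · rcases abs_eq_abs.1 hab with h3 | h3
      · subst h3
        rw [sub_self, abs_zero, Real.zero_rpow hp0.ne'] at h
        have h4 : |α| ^ p = 0 := by
          have := (mul_eq_zero.1 h.symm).resolve_left h2p.ne'
          linarith
        have h5 : α = 0 := abs_eq_zero.1 ((Real.rpow_eq_zero_iff_of_nonneg (abs_nonneg _)).1 h4).1
        rw [h5, neg_zero]
      · rw [h3, neg_neg]
    · exfalso
      have hc := (strictConvexOn_rpow hp).2 (Set.mem_Ici.2 (abs_nonneg α))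
        (Set.mem_Ici.2 (abs_nonneg β)) hab (by norm_num : (0 : ℝ) < 1 / 2)
        (by norm_num : (0 : ℝ) < 1 / 2) (by norm_num)
      simp only [smul_eq_mul] at hc
      have := mul_lt_mul_of_pos_left hc h2p
      linarith

/-- Parallelogram defect. -/
noncomputable def defect (p α β : ℝ) : ℝ := |α - β| ^ p + |α + β| ^ p - 2 * |α| ^ p - 2 * |β| ^ p

lemma defect_zero {p : ℝ} (hp : 0 < p) {α β : ℝ} (h : α * β = 0) : defect p α β = 0 := by
  unfold defect
  rcases mul_eq_zero.1 h with rfl | rfl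
  · simp [Real.zero_rpow hp.ne']; ring
  · simp [Real.zero_rpow hp.ne']; ring

lemma abs_rpow_eq_sq (p x : ℝ) : |x| ^ p = (x ^ 2) ^ (p / 2) := by
  rw [← sq_abs, ← Real.rpow_natCast, ← Real.rpow_mul (abs_nonneg _)]
  congr 1
  push_cast
  ring

lemma defect_sign {p : ℝ} (hp : 0 < p) (hp2 : p ≠ 2) :
    ∃ σ : ℝ, ∀ α β : ℝ, α * β ≠ 0 → 0 < σ * defect p α β := by
  have hne : ∀ α β : ℝ, α * β ≠ 0 → (α - β) ^ 2 ≠ (α + β) ^ 2 := by
    intro α β h h'
    apply h
    nlinarith
  have hmid : ∀ α β : ℝ, 1 / 2 * (α - β) ^ 2 + 1 / 2 * (α + β) ^ 2 = α ^ 2 + β ^ 2 := by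
    intro α β; ring
  rcases lt_or_gt_of_ne hp2 with h | h
  · refine ⟨-1, fun α β hab => ?_⟩
    unfold defect
    simp only [abs_rpow_eq_sq]
    have hc := (Real.strictConcaveOn_rpow (by linarith : 0 < p / 2) (by linarith)).2
      (Set.mem_Ici.2 (sq_nonneg (α - β))) (Set.mem_Ici.2 (sq_nonneg (α + β))) (hne α β hab)
      (by norm_num : (0 : ℝ) < 1 / 2) (by norm_num : (0 : ℝ) < 1 / 2) (by norm_num)
    simp only [smul_eq_mul, hmid] at hc
    have h2 := Real.rpow_add_le_add_rpow (sq_nonneg α) (sq_nonneg β) (by linarith : 0 ≤ p / 2)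
      (by linarith)
    linarith
  · refine ⟨1, fun α β hab => ?_⟩
    unfold defect
    simp only [abs_rpow_eq_sq]
    have hc := (strictConvexOn_rpow (by linarith : 1 < p / 2)).2
      (Set.mem_Ici.2 (sq_nonneg (α - β))) (Set.mem_Ici.2 (sq_nonneg (α + β))) (hne α β hab)
      (by norm_num : (0 : ℝ) < 1 / 2) (by norm_num : (0 : ℝ) < 1 / 2) (by norm_num)
    simp only [smul_eq_mul, hmid] at hc
    have h2 := Real.add_rpow_le_rpow_add (sq_nonneg α) (sq_nonneg β) (by linarith : 1 ≤ p / 2)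
    linarith

lemma sum_defect_eq_zero_iff {p : ℝ} (hp : 0 < p) (hp2 : p ≠ 2) {T : Type*} [Fintype T]
    (u v : T → ℝ) : ∑ t, defect p (u t) (v t) = 0 ↔ ∀ t, u t * v t = 0 := by
  refine ⟨fun h t => ?_, fun h => sum_eq_zero fun t _ => defect_zero hp (h t)⟩
  obtain ⟨σ, hσ⟩ := defect_sign hp hp2
  have h0 : ∀ t, 0 ≤ σ * defect p (u t) (v t) := by
    intro t
    by_cases h1 : u t * v t = 0
    · rw [defect_zero hp h1, mul_zero]
    · exact (hσ _ _ h1).le
  have h2 : ∑ t, σ * defect p (u t) (v t) = 0 := by rw [← mul_sum, h, mul_zero]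
  by_contra h1
  exact (hσ _ _ h1).ne' ((sum_eq_zero_iff_of_nonneg fun t _ => h0 t).1 h2 t (mem_univ t))

lemma support_preserved {p c : ℝ} (hp : 1 < p) (hp2 : p ≠ 2) (hc : 0 < c) {T T' : Type*}
    [Fintype T] [Fintype T'] (X : Set (T → ℝ)) (F : (T → ℝ) → T' → ℝ)
    (hF : ∀ x ∈ X, ∀ y ∈ X, ∑ k, |F x k - F y k| ^ p = c * ∑ t, |x t - y t| ^ p)
    (h0 : (0 : T → ℝ) ∈ X) {x y : T → ℝ} (hx : x ∈ X) (hy : y ∈ X) (hy' : -y ∈ X) :
    (∀ k, (F x k - F 0 k) * (F y k - F 0 k) = 0) ↔ ∀ t, x t * y t = 0 := by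
  have hp0 : 0 < p := by linarith
  have hodd : ∀ k, F (-y) k - F 0 k = -(F y k - F 0 k) := by
    have h1 := hF y hy 0 h0
    have h2 := hF (-y) hy' 0 h0
    have h3 := hF y hy (-y) hy'
    simp only [Pi.zero_apply, sub_zero, Pi.neg_apply, abs_neg, sub_neg_eq_add] at h1 h2 h3
    have h4 : ∑ t, |y t + y t| ^ p = 2 ^ p * ∑ t, |y t| ^ p := by
      rw [mul_sum]
      refine sum_congr rfl fun t _ => ?_
      rw [← two_mul, abs_mul, abs_two, Real.mul_rpow (by norm_num) (abs_nonneg _)]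
    have h5 : ∑ k, (2 ^ p * ((|F y k - F 0 k| ^ p + |F (-y) k - F 0 k| ^ p) / 2) -
        |(F y k - F 0 k) - (F (-y) k - F 0 k)| ^ p) = 0 := by
      simp_rw [sub_sub_sub_cancel_right]
      rw [sum_sub_distrib, ← mul_sum, ← sum_div, sum_add_distrib, h1, h2, h3, h4]
      ring
    intro k
    have h6 := (sum_eq_zero_iff_of_nonneg fun k _ => sub_nonneg.2
      (mid_le hp (F y k - F 0 k) (F (-y) k - F 0 k)).1).1 h5 k (mem_univ k)
    exact (mid_le hp _ _).2 (by linarith)
  rw [← sum_defect_eq_zero_iff hp0 hp2 (fun k => F x k - F 0 k) (fun k => F y k - F 0 k),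
    ← sum_defect_eq_zero_iff hp0 hp2 x y]
  have h7 : ∑ k, defect p (F x k - F 0 k) (F y k - F 0 k) = c * ∑ t, defect p (x t) (y t) := by
    have h1 := hF x hx 0 h0
    have h2 := hF y hy 0 h0
    have h3 := hF x hx y hy
    have h4 := hF x hx (-y) hy'
    simp only [Pi.zero_apply, sub_zero, Pi.neg_apply, abs_neg, sub_neg_eq_add] at h1 h2 h4
    have h5 : ∀ k, F x k - F 0 k + (F y k - F 0 k) = F x k - F (-y) k := by
      intro k; linarith [hodd k]
    unfold defect
    simp_rw [sub_sub_sub_cancel_right, h5]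
    simp only [sum_sub_distrib, sum_add_distrib, ← mul_sum, h1, h2, h3, h4]
    ring
  rw [h7]
  simp [hc.ne']

theorem exact_lower (p : ℝ) (hp : 1 < p) (hp2 : p ≠ 2) (n : ℕ) (hn : 2 ≤ n) :
    ∃ (m : ℕ) (X : Finset (Fin m → ℝ)), X.card = n ∧
      ∀ (d : ℕ) (f : (Fin m → ℝ) → Fin d → ℝ) (s : ℝ), 0 < s →
        (∀ x ∈ X, ∀ x' ∈ X, (∑ k, |f x k - f x' k| ^ p) ^ (1 / p) =
          s * (∑ t, |x t - x' t| ^ p) ^ (1 / p)) → ((n - 1) / 4) ^ 2 ≤ d := by
  classical
  have hp0 : 0 < p := by linarith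
  set k := (n - 1) / 4 with hk
  set A : Fin k → Fin (k * k + 1) → ℝ := fun i t =>
    if ∃ j, t = (finProdFinEquiv (i, j)).castSucc then 1 else 0 with hA
  set B : Fin k → Fin (k * k + 1) → ℝ := fun j t =>
    if ∃ i, t = (finProdFinEquiv (i, j)).castSucc then 1 else 0 with hB
  set X₀ : Finset (Fin (k * k + 1) → ℝ) := insert 0 ((univ.image A ∪ univ.image fun i => -A i) ∪
    (univ.image B ∪ univ.image fun j => -B j)) with hX₀
  have hcard : X₀.card ≤ n := by
    refine (card_insert_le _ _).trans ?_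
    have h1 := card_union_le (univ.image A ∪ univ.image fun i => -A i)
      (univ.image B ∪ univ.image fun j => -B j)
    have h2 := card_union_le (univ.image A) (univ.image fun i => -A i)
    have h3 := card_union_le (univ.image B) (univ.image fun j => -B j)
    have h4 := card_image_le (s := univ) (f := A)
    have h5 := card_image_le (s := univ) (f := fun i => -A i)
    have h6 := card_image_le (s := univ) (f := B)
    have h7 := card_image_le (s := univ) (f := fun j => -B j)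
    rw [card_univ, Fintype.card_fin] at h4 h5 h6 h7
    omega
  obtain ⟨X, hX, hXc⟩ := Infinite.exists_superset_card_eq X₀ n hcard
  refine ⟨k * k + 1, X, hXc, fun d f s hs hf => ?_⟩
  have hF : ∀ x ∈ (X : Set (Fin (k * k + 1) → ℝ)), ∀ y ∈ (X : Set (Fin (k * k + 1) → ℝ)),
      ∑ k, |f x k - f y k| ^ p = s ^ p * ∑ t, |x t - y t| ^ p := by
    intro x hx y hy
    have h1 := congrArg (· ^ p) (hf x hx y hy)
    have h2 : ∀ z : ℝ, 0 ≤ z → (z ^ (1 / p)) ^ p = z := fun z hz => by
      rw [← Real.rpow_mul hz, one_div_mul_cancel hp0.ne', Real.rpow_one]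
    rwa [Real.mul_rpow hs.le (Real.rpow_nonneg (by positivity) _), h2 _ (by positivity),
      h2 _ (by positivity)] at h1
  have h0 : (0 : Fin (k * k + 1) → ℝ) ∈ X := hX (mem_insert_self _ _)
  have hA1 : ∀ i, A i ∈ X := fun i => hX (by simp [hX₀])
  have hA2 : ∀ i, -A i ∈ X := fun i => hX (by simp [hX₀])
  have hB1 : ∀ i, B i ∈ X := fun i => hX (by simp [hX₀])
  have hB2 : ∀ i, -B i ∈ X := fun i => hX (by simp [hX₀])
  have hsp : 0 < s ^ p := Real.rpow_pos_of_pos hs p
  have hAB : ∀ ij : Fin k × Fin k, ∃ t, (f (A ij.1) t - f 0 t) * (f (B ij.2) t - f 0 t) ≠ 0 := by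
    rintro ⟨i, j⟩
    by_contra hcon
    push Not at hcon
    have := (support_preserved hp hp2 hsp _ f hF h0 (hA1 i) (hB1 j) (hB2 j)).1 hcon
      (finProdFinEquiv (i, j)).castSucc
    simp only [hA, hB] at this
    rw [if_pos ⟨j, rfl⟩, if_pos ⟨i, rfl⟩] at this
    norm_num at this
  choose τ hτ using hAB
  have hinj : Function.Injective τ := by
    rintro ⟨i, j⟩ ⟨i', j'⟩ h
    have h1 := hτ (i, j)
    have h2 := hτ (i', j')
    rw [← h] at h2
    have hi : i = i' := by
      by_contra hne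
      have := (support_preserved hp hp2 hsp _ f hF h0 (hA1 i) (hA1 i') (hA2 i')).2 (fun t => by
        simp only [hA]
        split_ifs with ha hb
        · exfalso
          obtain ⟨a, rfl⟩ := ha
          obtain ⟨b, hb⟩ := hb
          have := finProdFinEquiv.injective (Fin.castSucc_injective _ hb)
          exact hne (Prod.ext_iff.1 this).1
        all_goals simp) (τ (i, j))
      rcases mul_eq_zero.1 this with h3 | h3
      · exact h1 (by rw [h3, zero_mul])
      · exact h2 (by rw [h3, zero_mul])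
    have hj : j = j' := by
      by_contra hne
      have := (support_preserved hp hp2 hsp _ f hF h0 (hB1 j) (hB1 j') (hB2 j')).2 (fun t => by
        simp only [hB]
        split_ifs with ha hb
        · exfalso
          obtain ⟨a, rfl⟩ := ha
          obtain ⟨b, hb⟩ := hb
          have := finProdFinEquiv.injective (Fin.castSucc_injective _ hb)
          exact hne (Prod.ext_iff.1 this).2
        all_goals simp) (τ (i, j))
      rcases mul_eq_zero.1 this with h3 | h3
      · exact h1 (by rw [h3, mul_zero])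
      · exact h2 (by rw [h3, mul_zero])
    rw [hi, hj]
  have := Fintype.card_le_of_injective τ hinj
  simpa [sq] using this

end Vale.Agent.P249
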