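import Mathlib

/-! Elementary inequalities for real powers and geometric sums. -/

set_option linter.unusedSectionVars false
set_option linter.unusedSimpArgs false

namespace Vale.Agent.P249

open Finset

lemma abs_add_rpow_le {p ζ : ℝ} (hp : 0 < p) (hζ : 0 < ζ) :
    ∃ C : ℝ, 0 ≤ C ∧ ∀ a b : ℝ, |a + b| ^ p ≤ (1 + ζ) * |a| ^ p + C * |b| ^ p := by
  set κ := (1 + ζ) ^ (1 / p) - 1 with hκ
  have hκ0 : 0 < κ := by
    have : 1 < (1 + ζ) ^ (1 / p) := Real.one_lt_rpow (by linarith) (by positivity)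
    linarith
  have hκ1 : (1 + κ) ^ p = 1 + ζ := by
    rw [hκ, add_sub_cancel, ← Real.rpow_mul (by linarith), one_div_mul_cancel hp.ne',
      Real.rpow_one]
  refine ⟨(1 + 1 / κ) ^ p, by positivity, fun a b => ?_⟩
  have ha := abs_nonneg a
  have hb := abs_nonneg b
  rcases le_total |b| (κ * |a|) with h | h
  · have h1 : |a + b| ≤ (1 + κ) * |a| := by linarith [abs_add_le a b]
    have h2 := Real.rpow_le_rpow (abs_nonneg _) h1 hp.le
    rw [Real.mul_rpow (by linarith) ha, hκ1] at h2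
    have : 0 ≤ (1 + 1 / κ) ^ p * |b| ^ p := by positivity
    linarith
  · have h0 : |a| ≤ 1 / κ * |b| := by
      rw [one_div, ← div_eq_inv_mul, le_div_iff₀ hκ0]; linarith
    have h1 : |a + b| ≤ (1 + 1 / κ) * |b| := by linarith [abs_add_le a b]
    have h2 := Real.rpow_le_rpow (abs_nonneg _) h1 hp.le
    rw [Real.mul_rpow (by positivity) hb] at h2
    have : 0 ≤ (1 + ζ) * |a| ^ p := by positivity
    linarith

lemma abs_add_rpow_le_two {p : ℝ} (hp : 0 ≤ p) (a b : ℝ) :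
    |a + b| ^ p ≤ 2 ^ p * (|a| ^ p + |b| ^ p) := by
  have ha := abs_nonneg a
  have hb := abs_nonneg b
  rcases le_total |b| |a| with h | h
  · have h1 : |a + b| ≤ 2 * |a| := by linarith [abs_add_le a b]
    have h2 := Real.rpow_le_rpow (abs_nonneg _) h1 hp
    rw [Real.mul_rpow (by norm_num) ha] at h2
    have : 0 ≤ (2 : ℝ) ^ p * |b| ^ p := by positivity
    linarith
  · have h1 : |a + b| ≤ 2 * |b| := by linarith [abs_add_le a b]
    have h2 := Real.rpow_le_rpow (abs_nonneg _) h1 hp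
    rw [Real.mul_rpow (by norm_num) hb] at h2
    have : 0 ≤ (2 : ℝ) ^ p * |a| ^ p := by positivity
    linarith

lemma two_point_lower {p : ℝ} (hp : 1 ≤ p) (s y : ℝ) :
    |s| ^ p ≤ (|s + y| ^ p + |s - y| ^ p) / 2 := by
  have hc := (convexOn_rpow hp).2 (Set.mem_Ici.2 (abs_nonneg (s + y)))
    (Set.mem_Ici.2 (abs_nonneg (s - y))) (by norm_num : (0 : ℝ) ≤ 1 / 2)
    (by norm_num : (0 : ℝ) ≤ 1 / 2) (by norm_num)
  simp only [smul_eq_mul] at hc
  have h1 : |s| ≤ 1 / 2 * |s + y| + 1 / 2 * |s - y| := by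
    have := abs_add_le (s + y) (s - y)
    rw [show s + y + (s - y) = 2 * s by ring, abs_mul, abs_two] at this
    linarith
  have h2 := Real.rpow_le_rpow (abs_nonneg _) h1 (by linarith : 0 ≤ p)
  linarith

lemma two_point_unit {p : ℝ} (hp : 0 ≤ p) {t : ℝ} (ht : |t| ≤ 1) :
    (|1 + t| ^ p + |1 - t| ^ p) / 2 ≤ 1 + (p ^ 2 * Real.exp (p ^ 2)) * t ^ 2 := by
  have h := abs_le.1 ht
  have h1 : |1 + t| ^ p ≤ Real.exp (p * t) := by
    rw [abs_of_nonneg (by linarith), mul_comm, Real.exp_mul]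
    exact Real.rpow_le_rpow (by linarith) (by linarith [Real.add_one_le_exp t]) hp
  have h2 : |1 - t| ^ p ≤ Real.exp (-(p * t)) := by
    rw [abs_of_nonneg (by linarith), show -(p * t) = (-t) * p by ring, Real.exp_mul]
    exact Real.rpow_le_rpow (by linarith) (by linarith [Real.add_one_le_exp (-t)]) hp
  have h3 := Real.cosh_le_exp_half_sq (p * t)
  rw [Real.cosh_eq] at h3
  set x := (p * t) ^ 2 / 2 with hx
  have ht2 : t ^ 2 ≤ 1 := by nlinarith
  have hx0 : 0 ≤ x := by positivity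
  have hx1 : x ≤ p ^ 2 * t ^ 2 := by rw [hx, mul_pow]; nlinarith [sq_nonneg (p * t)]
  have hx2 : x ≤ p ^ 2 := by nlinarith [sq_nonneg p]
  have h4 : Real.exp x ≤ 1 + x * Real.exp x := by
    have h5 := Real.add_one_le_exp (-x)
    have h6 := mul_le_mul_of_nonneg_right h5 (Real.exp_pos x).le
    rw [← Real.exp_add, neg_add_cancel, Real.exp_zero] at h6
    linarith
  have h7 : x * Real.exp x ≤ p ^ 2 * t ^ 2 * Real.exp (p ^ 2) :=
    mul_le_mul hx1 (Real.exp_le_exp.2 hx2) (Real.exp_pos x).le (by positivity)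
  nlinarith

lemma two_point_scaled {p : ℝ} (hp : 0 ≤ p) {s y : ℝ} (hs : s ≠ 0) (hy : |y| ≤ |s|) :
    (|s + y| ^ p + |s - y| ^ p) / 2 ≤
      |s| ^ p + (p ^ 2 * Real.exp (p ^ 2)) * (|s| ^ (p - 2) * y ^ 2) := by
  have hs0 : 0 < |s| := abs_pos.2 hs
  have ht : |y / s| ≤ 1 := by rw [abs_div, div_le_one hs0]; exact hy
  have h1 := two_point_unit hp ht
  have h2 : |s + y| ^ p = |s| ^ p * |1 + y / s| ^ p := by
    rw [← Real.mul_rpow hs0.le (abs_nonneg _), ← abs_mul]
    congr 2; field_simp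
  have h3 : |s - y| ^ p = |s| ^ p * |1 - y / s| ^ p := by
    rw [← Real.mul_rpow hs0.le (abs_nonneg _), ← abs_mul]
    congr 2; field_simp
  have h4 : |s| ^ (p - 2) * y ^ 2 = |s| ^ p * (y / s) ^ 2 := by
    rw [Real.rpow_sub hs0, div_pow, ← sq_abs s]
    norm_cast
    field_simp
  have h5 := mul_le_mul_of_nonneg_left h1 (Real.rpow_nonneg hs0.le p)
  rw [h2, h3, h4]
  nlinarith

lemma two_point_far {p : ℝ} (hp : 0 ≤ p) {s y : ℝ} (hy : |s| ≤ |y|) :
    (|s + y| ^ p + |s - y| ^ p) / 2 ≤ 2 ^ p * |y| ^ p := by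
  rw [← Real.mul_rpow (by norm_num) (abs_nonneg _)]
  have h1 : |s + y| ^ p ≤ (2 * |y|) ^ p :=
    Real.rpow_le_rpow (abs_nonneg _) (by linarith [abs_add_le s y]) hp
  have h2 : |s - y| ^ p ≤ (2 * |y|) ^ p :=
    Real.rpow_le_rpow (abs_nonneg _) (by linarith [abs_sub s y]) hp
  linarith

lemma two_point_small {p : ℝ} (hp : 0 < p) (hp2 : p ≤ 2) :
    ∃ c : ℝ, 0 ≤ c ∧ ∀ s y : ℝ, (|s + y| ^ p + |s - y| ^ p) / 2 ≤
      |s| ^ p + 0 * ((1 + |s| ^ p) * y ^ 2) + c * |y| ^ p := by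
  refine ⟨p ^ 2 * Real.exp (p ^ 2) + 2 ^ p, by positivity, fun s y => ?_⟩
  have hA : 0 ≤ |s| ^ p := by positivity
  have hB : 0 ≤ p ^ 2 * Real.exp (p ^ 2) * |y| ^ p := by positivity
  have hC : 0 ≤ 2 ^ p * |y| ^ p := by positivity
  rcases le_total |s| |y| with h | h
  · have := two_point_far hp.le h
    nlinarith
  · rcases eq_or_ne y 0 with rfl | hy
    · simp [Real.zero_rpow hp.ne']
    have hy0 : 0 < |y| := abs_pos.2 hy
    have hs : s ≠ 0 := abs_pos.1 (hy0.trans_le h)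
    have h1 := two_point_scaled hp.le hs h
    have h2 : |s| ^ (p - 2) ≤ |y| ^ (p - 2) :=
      Real.rpow_le_rpow_of_nonpos hy0 h (by linarith)
    have h3 : |y| ^ (p - 2) * y ^ 2 = |y| ^ p := by
      rw [Real.rpow_sub hy0, ← sq_abs y]
      norm_cast
      field_simp
    have h4 : |s| ^ (p - 2) * y ^ 2 ≤ |y| ^ p := by
      rw [← h3]; exact mul_le_mul_of_nonneg_right h2 (sq_nonneg y)
    have h5 := mul_le_mul_of_nonneg_left h4 (by positivity : 0 ≤ p ^ 2 * Real.exp (p ^ 2))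
    nlinarith

lemma two_point_large {p : ℝ} (hp2 : 2 ≤ p) :
    ∃ c : ℝ, 0 ≤ c ∧ ∀ s y : ℝ, (|s + y| ^ p + |s - y| ^ p) / 2 ≤
      |s| ^ p + c * ((1 + |s| ^ p) * y ^ 2) + c * |y| ^ p := by
  have hp : 0 < p := by linarith
  refine ⟨p ^ 2 * Real.exp (p ^ 2) + 2 ^ p, by positivity, fun s y => ?_⟩
  have hA : 0 ≤ |s| ^ p := by positivity
  have hB : 0 ≤ p ^ 2 * Real.exp (p ^ 2) * |y| ^ p := by positivity
  have hC : 0 ≤ 2 ^ p * |y| ^ p := by positivity
  have hD : 0 ≤ p ^ 2 * Real.exp (p ^ 2) * ((1 + |s| ^ p) * y ^ 2) := by positivity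
  have hE : 0 ≤ 2 ^ p * ((1 + |s| ^ p) * y ^ 2) := by positivity
  rcases le_total |s| |y| with h | h
  · have := two_point_far hp.le h
    nlinarith
  · rcases eq_or_ne s 0 with rfl | hs
    · have : y = 0 := by simpa using h
      subst this
      simp [Real.zero_rpow hp.ne']
    have hs0 : 0 < |s| := abs_pos.2 hs
    have h1 := two_point_scaled hp.le hs h
    have h2 : |s| ^ (p - 2) ≤ 1 + |s| ^ p := by
      rcases le_total |s| 1 with h3 | h3
      · have := Real.rpow_le_one hs0.le h3 (by linarith : 0 ≤ p - 2)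
        linarith
      · have := Real.rpow_le_rpow_of_exponent_le h3 (by linarith : p - 2 ≤ p)
        linarith
    have h4 := mul_le_mul_of_nonneg_right h2 (sq_nonneg y)
    have h5 := mul_le_mul_of_nonneg_left h4 (by positivity : 0 ≤ p ^ 2 * Real.exp (p ^ 2))
    nlinarith

lemma abs_rpow_le_exp {p : ℝ} (hp : 0 < p) (x : ℝ) :
    |x| ^ p ≤ (2 * p) ^ p * Real.exp (|x| / 2) := by
  have h1 : |x| ≤ 2 * p * Real.exp (|x| / (2 * p)) := by
    have := Real.add_one_le_exp (|x| / (2 * p))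
    have h2 : |x| / (2 * p) ≤ Real.exp (|x| / (2 * p)) := by linarith
    rw [div_le_iff₀ (by positivity)] at h2
    linarith
  refine (Real.rpow_le_rpow (abs_nonneg _) h1 hp.le).trans (le_of_eq ?_)
  rw [Real.mul_rpow (by positivity) (Real.exp_pos _).le, ← Real.exp_mul]
  congr 2
  field_simp

lemma geom_down {z t : ℝ} (hz0 : 0 ≤ z) (hz : z < 1) (ht : 0 ≤ t) (N : ℕ) :
    ∑ k ∈ range N, (if z ^ k ≤ t then z ^ k else 0) ≤ t / (1 - z) := by
  have h1 : 0 < 1 - z := by linarith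
  suffices h : (1 - z) * ∑ k ∈ range N, (if z ^ k ≤ t then z ^ k else 0) ≤ t - min t (z ^ N) by
    rw [le_div_iff₀ h1]
    have : 0 ≤ min t (z ^ N) := le_min ht (pow_nonneg hz0 N)
    linarith
  induction N with
  | zero => simp
  | succ N ih =>
    rw [sum_range_succ, mul_add]
    have h2 : z ^ (N + 1) ≤ z ^ N := by
      rw [pow_succ]; exact mul_le_of_le_one_right (pow_nonneg hz0 N) hz.le
    split_ifs with h
    · rw [min_eq_right h] at ih
      rw [min_eq_right (h2.trans h), pow_succ]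
      linarith
    · have := min_le_min_left t h2
      linarith

lemma geom_up {w t : ℝ} (hw : 1 < w) (ht : 0 ≤ t) (N : ℕ) :
    ∑ k ∈ range N, (if w ^ k ≤ t then w ^ k else 0) ≤ t / (1 - w⁻¹) := by
  have hw0 : 0 < w := by linarith
  have h1 : 0 < w - 1 := by linarith
  suffices h : (w - 1) * ∑ k ∈ range N, (if w ^ k ≤ t then w ^ k else 0) ≤ min (w * t) (w ^ N) by
    have h2 : 0 < 1 - w⁻¹ := by
      have := inv_lt_one_of_one_lt₀ hw
      linarith
    rw [le_div_iff₀ h2]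
    have h3 := h.trans (min_le_left _ _)
    have h4 : (1 - w⁻¹) = (w - 1) * w⁻¹ := by field_simp
    rw [h4]
    have h5 := mul_le_mul_of_nonneg_right h3 (inv_pos.2 hw0).le
    have h6 : w * t * w⁻¹ = t := by field_simp
    nlinarith
  induction N with
  | zero => simp; positivity
  | succ N ih =>
    rw [sum_range_succ, mul_add]
    have h2 : w ^ N ≤ w ^ (N + 1) := by
      rw [pow_succ]; exact le_mul_of_one_le_right (pow_nonneg hw0.le N) hw.le
    split_ifs with h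
    · have h3 := ih.trans (min_le_right _ _)
      refine le_min ?_ ?_
      · have := mul_le_mul_of_nonneg_left h hw0.le
        nlinarith
      · rw [pow_succ]; nlinarith
    · have := min_le_min_left (w * t) h2
      linarith

/-- Dyadic thresholds. -/
noncomputable def tau (k : ℕ) : ℝ := (1 / 2) ^ k

lemma tau_pos (k : ℕ) : 0 < tau k := by unfold tau; positivity

/-- The constant in dyadic sums. -/
noncomputable def gc (α : ℝ) : ℝ := 1 / (1 - (1 / 2) ^ α)

lemma half_rpow_lt_one {α : ℝ} (hα : 0 < α) : (1 / 2 : ℝ) ^ α < 1 :=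
  Real.rpow_lt_one (by norm_num) (by norm_num) hα

lemma gc_pos {α : ℝ} (hα : 0 < α) : 0 < gc α := by
  unfold gc
  have := half_rpow_lt_one hα
  exact one_div_pos.2 (by linarith)

lemma sum_tau_down {α θ : ℝ} (hα : 0 < α) (hθ : 0 ≤ θ) (N : ℕ) :
    ∑ k ∈ range N, (if tau k ≤ θ then tau k ^ α else 0) ≤ gc α * θ ^ α := by
  have h := geom_down (z := (1 / 2) ^ α) (t := θ ^ α) (by positivity) (half_rpow_lt_one hα)
    (by positivity) N
  unfold gc
  rw [one_div_mul_eq_div]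
  refine le_trans (sum_le_sum fun k _ => ?_) h
  rw [Real.rpow_pow_comm (by norm_num)]
  change _ ≤ if tau k ^ α ≤ θ ^ α then tau k ^ α else 0
  split_ifs with h1 h2
  · exact le_rfl
  · exact absurd (Real.rpow_le_rpow (tau_pos k).le h1 hα.le) h2
  · exact Real.rpow_nonneg (tau_pos k).le _
  · exact le_rfl

lemma sum_tau_up {α θ : ℝ} (hα : 0 < α) (hθ : 0 < θ) (N : ℕ) :
    ∑ k ∈ range N, (if θ ≤ tau k then tau k ^ (-α) else 0) ≤ gc α * θ ^ (-α) := by
  have hw : 1 < (1 / 2 : ℝ) ^ (-α) :=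
    Real.one_lt_rpow_of_pos_of_lt_one_of_neg (by norm_num) (by norm_num) (by linarith)
  have h := geom_up (w := (1 / 2) ^ (-α)) (t := θ ^ (-α)) hw (by positivity) N
  unfold gc
  rw [one_div_mul_eq_div]
  rw [Real.rpow_neg (by norm_num : (0 : ℝ) ≤ 1 / 2), inv_inv,
    ← Real.rpow_neg (by norm_num : (0 : ℝ) ≤ 1 / 2)] at h
  refine le_trans (sum_le_sum fun k _ => ?_) h
  rw [Real.rpow_pow_comm (by norm_num)]
  change _ ≤ if tau k ^ (-α) ≤ θ ^ (-α) then tau k ^ (-α) else 0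
  split_ifs with h1 h2
  · exact le_rfl
  · exact absurd (Real.rpow_le_rpow_of_nonpos hθ h1 (by linarith)) h2
  · exact Real.rpow_nonneg (tau_pos k).le _
  · exact le_rfl

/-- Two-sided geometric control of a sequence. -/
lemma sum_two_sided {α γ θ A B : ℝ} (hα : 0 < α) (hγ : 0 < γ) (hθ : 0 < θ) (hA : 0 ≤ A)
    (hB : 0 ≤ B) (x : ℕ → ℝ) (N : ℕ) (h1 : ∀ k ∈ range N, x k ≤ A * tau k ^ α)
    (h2 : ∀ k ∈ range N, x k ≤ B * tau k ^ (-γ)) :
    ∑ k ∈ range N, x k ≤ gc α * (A * θ ^ α) + gc γ * (B * θ ^ (-γ)) := by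
  have h3 := mul_le_mul_of_nonneg_left (sum_tau_down hα hθ.le N) hA
  have h4 := mul_le_mul_of_nonneg_left (sum_tau_up hγ hθ N) hB
  rw [mul_sum] at h3 h4
  have h5 : ∑ k ∈ range N, x k ≤ ∑ k ∈ range N, (A * (if tau k ≤ θ then tau k ^ α else 0) +
      B * (if θ ≤ tau k then tau k ^ (-γ) else 0)) := by
    refine sum_le_sum fun k hk => ?_
    have hp1 : 0 ≤ A * tau k ^ α := mul_nonneg hA (Real.rpow_nonneg (tau_pos k).le _)
    have hp2 : 0 ≤ B * tau k ^ (-γ) := mul_nonneg hB (Real.rpow_nonneg (tau_pos k).le _)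
    have := h1 k hk
    have := h2 k hk
    split_ifs with ha hb hb
    · linarith
    · linarith
    · linarith
    · exact absurd (le_of_not_ge ha) hb
  rw [sum_add_distrib] at h5
  linarith

end Vale.Agent.P249
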