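import Vale.Agent.P249.Core

/-! Reduction from general `L_p` spaces to finite sums, and the final theorem. -/

set_option linter.unusedSectionVars false
set_option linter.unusedSimpArgs false

namespace Vale.Agent.P249

open Finset MeasureTheory

lemma exists_finite_model {p η : ℝ} (hp : 1 ≤ p) (hη : 0 < η) {Ω : Type*} [MeasurableSpace Ω]
    (μ : Measure Ω) {n : ℕ} (u : Fin n → Lp ℝ (ENNReal.ofReal p) μ) :
    ∃ (J : Type) (_ : Fintype J) (f : J → Fin n → ℝ), ∀ x y,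
      |(∑ j, |f j x - f j y| ^ p) ^ (1 / p) - ‖u x - u y‖| ≤ η := by
  have hp0 : 0 < p := by linarith
  have : Fact (1 ≤ ENNReal.ofReal p) := ⟨ENNReal.one_le_ofReal.2 hp⟩
  have hq0 : ENNReal.ofReal p ≠ 0 := by simpa using hp0
  have hq1 : ENNReal.ofReal p ≠ ⊤ := ENNReal.ofReal_ne_top
  have hqr : (ENNReal.ofReal p).toReal = p := ENNReal.toReal_ofReal hp0.le
  set Φ : Ω → Fin n → ℝ := fun ω x => u x ω with hΦ
  have hΦm : MemLp Φ (ENNReal.ofReal p) μ := memLp_pi_iff.2 fun x => Lp.memLp (u x)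
  obtain ⟨g, hg, hgm⟩ := hΦm.exists_simpleFunc_eLpNorm_sub_lt hq1
    (ε := ENNReal.ofReal (η / 2)) (by simpa using hη)
  have hgx : ∀ x, MemLp (fun ω => g ω x) (ENNReal.ofReal p) μ := memLp_pi_iff.1 hgm
  set G : Fin n → Lp ℝ (ENNReal.ofReal p) μ := fun x => (hgx x).toLp _ with hG
  have hclose : ∀ x, ‖u x - G x‖ ≤ η / 2 := by
    intro x
    rw [Lp.norm_def]
    refine ENNReal.toReal_le_of_le_ofReal (by linarith) (le_trans ?_ hg.le)
    refine eLpNorm_mono_ae ?_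
    filter_upwards [Lp.coeFn_sub (u x) (G x), (hgx x).coeFn_toLp] with ω h1 h2
    rw [h1, Pi.sub_apply, h2]
    exact norm_le_pi_norm ((Φ - ⇑g) ω) x
  have hint : Integrable g μ := (SimpleFunc.memLp_iff_integrable hq0 hq1).1 hgm
  refine ⟨g.range, inferInstance, fun v x => μ.real (g ⁻¹' {v.1}) ^ (1 / p) * v.1 x,
    fun x y => ?_⟩
  have h1 : (∑ v : g.range, |μ.real (g ⁻¹' {v.1}) ^ (1 / p) * v.1 x -
      μ.real (g ⁻¹' {v.1}) ^ (1 / p) * v.1 y| ^ p) ^ (1 / p) = ‖G x - G y‖ := by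
    have hm := (hgx x).sub (hgx y)
    have h2 : eLpNorm (G x - G y) (ENNReal.ofReal p) μ =
        eLpNorm ((fun ω => g ω x) - fun ω => g ω y) (ENNReal.ofReal p) μ := by
      refine eLpNorm_congr_ae ?_
      filter_upwards [Lp.coeFn_sub (G x) (G y), (hgx x).coeFn_toLp, (hgx y).coeFn_toLp]
        with ω h1 h2 h3
      rw [h1, Pi.sub_apply, h2, h3, Pi.sub_apply]
    have h3 := g.map_integral (fun v => |v x - v y| ^ p) hint (by simp [hp0.ne'])
    have h4 : Integrable (g.map fun v => |v x - v y| ^ p) μ := by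
      have := hm.integrable_norm_rpow hq0 hq1
      rw [hqr] at this
      exact this
    rw [SimpleFunc.integral_eq_integral _ h4] at h3
    rw [Lp.norm_def, h2, hm.eLpNorm_eq_integral_rpow_norm hq0 hq1, hqr,
      ENNReal.toReal_ofReal (Real.rpow_nonneg (integral_nonneg fun ω => by positivity) _), one_div]
    congr 1
    refine Eq.trans ?_ h3.symm
    rw [← sum_coe_sort g.range]
    refine sum_congr rfl fun v _ => ?_
    rw [← mul_sub, abs_mul, abs_of_nonneg (Real.rpow_nonneg measureReal_nonneg _),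
      Real.mul_rpow (Real.rpow_nonneg measureReal_nonneg _) (abs_nonneg _),
      ← Real.rpow_mul measureReal_nonneg, inv_mul_cancel₀ hp0.ne', Real.rpow_one, smul_eq_mul]
  rw [h1]
  refine (abs_norm_sub_norm_le _ _).trans ?_
  have h5 : G x - G y - (u x - u y) = (u y - G y) - (u x - G x) := by abel
  rw [h5]
  linarith [norm_sub_le (u y - G y) (u x - G x), hclose x, hclose y]

universe u

theorem main (p D : ℝ) (hp : 1 < p) (hp2 : p ≠ 2) (hD : 1 < D) :
    ∃ C : ℝ, ∀ n : ℕ, 2 ≤ n → ∃ d : ℕ, (d : ℝ) ≤ Real.exp (C * Real.log n ^ |1 - 2 / p|) ∧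
      ∀ (Ω : Type u) [MeasurableSpace Ω] (μ : Measure Ω)
        (X : Finset (Lp ℝ (ENNReal.ofReal p) μ)), X.card = n →
        ∃ (f : Lp ℝ (ENNReal.ofReal p) μ → Fin d → ℝ) (s : ℝ), 0 < s ∧ ∀ x ∈ X, ∀ x' ∈ X,
          s * ‖x - x'‖ ≤ (∑ k, |f x k - f x' k| ^ p) ^ (1 / p) ∧
          (∑ k, |f x k - f x' k| ^ p) ^ (1 / p) ≤ D * s * ‖x - x'‖ := by
  classical
  have hp0 : 0 < p := by linarith
  have : Fact (1 ≤ ENNReal.ofReal p) := ⟨ENNReal.one_le_ofReal.2 hp.le⟩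
  set ζ := (D - 1) / (13 + 6 * D) with hζ
  have hζ0 : 0 < ζ := div_pos (by linarith) (by linarith)
  have hζD : ζ * (13 + 6 * D) = D - 1 := by rw [hζ]; field_simp
  have hζ1 : ζ < 1 / 6 := by
    rw [hζ, div_lt_iff₀ (by linarith)]; linarith
  obtain ⟨dim, ⟨C, -, hC⟩, hdim⟩ := core hp hp2 hζ0 (by linarith)
  refine ⟨C, fun n hn => ⟨dim n, hC n hn, fun Ω _ μ X hX => ?_⟩⟩
  set φ : Fin n ≃ X := (X.equivFinOfCardEq hX).symm with hφ
  set u : Fin n → Lp ℝ (ENNReal.ofReal p) μ := fun i => φ i with hu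
  have huinj : Function.Injective u := Subtype.val_injective.comp φ.injective
  obtain ⟨η, hη0, hη⟩ : ∃ η : ℝ, 0 < η ∧ ∀ x y, x ≠ y → η ≤ ζ * ‖u x - u y‖ := by
    have h1 : ∀ t : Fin n × Fin n, ∃ k : ℕ, t.1 ≠ t.2 → tau k ≤ ζ * ‖u t.1 - u t.2‖ := by
      intro t
      by_cases h : t.1 = t.2
      · exact ⟨0, fun h' => absurd h h'⟩
      · obtain ⟨k, hk⟩ := exists_pow_lt_of_lt_one (mul_pos hζ0 (norm_pos_iff.2 (sub_ne_zero.2
          (huinj.ne h)))) (by norm_num : (1 / 2 : ℝ) < 1)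
        exact ⟨k, fun _ => hk.le⟩
    choose k hk using h1
    exact ⟨tau (univ.sup k), tau_pos _, fun x y h =>
      (tau_anti (le_sup (f := k) (mem_univ (x, y)))).trans (hk (x, y) h)⟩
  obtain ⟨J, _, f, hf⟩ := exists_finite_model hp.le hη0 μ u
  have hS0 : ∀ x y, 0 ≤ ∑ j, |f j x - f j y| ^ p := fun x y =>
    sum_nonneg fun j _ => Real.rpow_nonneg (abs_nonneg _) _
  have hf' : ∀ x y, (1 - ζ) * ‖u x - u y‖ ≤ (∑ j, |f j x - f j y| ^ p) ^ (1 / p) ∧
      (∑ j, |f j x - f j y| ^ p) ^ (1 / p) ≤ (1 + ζ) * ‖u x - u y‖ := by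
    intro x y
    by_cases h : x = y
    · subst h
      simp [Real.zero_rpow hp0.ne', Real.zero_rpow (inv_ne_zero hp0.ne')]
    · have h1 := abs_le.1 (hf x y)
      have h2 := hη x y h
      constructor <;> linarith [h1.1, h1.2]
  obtain ⟨F, s, hs, hF⟩ := hdim n hn J f (fun x y h => by
    rcases (hS0 x y).eq_or_lt with h0 | h0
    · exfalso
      have h1 := (hf' x y).1
      rw [← h0, Real.zero_rpow (by positivity)] at h1
      have h2 : 0 < ‖u x - u y‖ := norm_pos_iff.2 (sub_ne_zero.2 (huinj.ne h))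
      nlinarith
    · exact h0)
  have hlo : 0 < s * (1 - 5 * ζ) := mul_pos hs (by linarith)
  refine ⟨fun x k => if h : x ∈ X then F k (φ.symm ⟨x, h⟩) else 0,
    (s * (1 - 5 * ζ)) ^ (1 / p) * (1 - ζ),
    mul_pos (Real.rpow_pos_of_pos hlo _) (by linarith), fun x hx y hy => ?_⟩
  simp only [hx, hy, dif_pos]
  set i := φ.symm ⟨x, hx⟩
  set j := φ.symm ⟨y, hy⟩
  have hi : u i = x := by simp [hu, i]
  have hj : u j = y := by simp [hu, j]
  have h1 := hf' i j
  rw [hi, hj] at h1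
  have h2 := hF i j
  have hn0 : 0 ≤ ‖x - y‖ := norm_nonneg _
  have hp1 : 0 ≤ 1 / p := by positivity
  constructor
  · refine le_trans ?_ (Real.rpow_le_rpow (mul_nonneg hlo.le (hS0 i j)) h2.1 hp1)
    rw [Real.mul_rpow hlo.le (hS0 i j), mul_assoc]
    exact mul_le_mul_of_nonneg_left h1.1 (Real.rpow_nonneg hlo.le _)
  · refine (Real.rpow_le_rpow (sum_nonneg fun k _ => Real.rpow_nonneg (abs_nonneg _) _)
      h2.2 hp1).trans ?_
    set t := (1 + 6 * ζ) / (1 - 5 * ζ) with ht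
    have ht1 : 1 ≤ t := by rw [ht, le_div_iff₀ (by linarith)]; linarith
    have ht2 : s * (1 + 6 * ζ) = s * (1 - 5 * ζ) * t := by
      rw [ht, mul_assoc, mul_div_cancel₀ _ (by linarith : 1 - 5 * ζ ≠ 0)]
    have ht3 : t ^ (1 / p) ≤ t := by
      refine Real.rpow_le_self_of_one_le ht1 ?_
      rw [div_le_one hp0]; exact hp.le
    have ht4 : t * (1 + ζ) ≤ D * (1 - ζ) := by
      rw [ht, div_mul_eq_mul_div, div_le_iff₀ (by linarith)]
      nlinarith [mul_nonneg (by linarith : 0 ≤ D) (sq_nonneg ζ)]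
    rw [ht2, Real.mul_rpow (by positivity) (hS0 i j), Real.mul_rpow hlo.le (by linarith)]
    have h3 : t ^ (1 / p) * (∑ j_1, |f j_1 i - f j_1 j| ^ p) ^ (1 / p) ≤
        D * (1 - ζ) * ‖x - y‖ := by
      refine (mul_le_mul ht3 h1.2 (Real.rpow_nonneg (hS0 i j) _) (by linarith)).trans ?_
      rw [← mul_assoc]
      exact mul_le_mul_of_nonneg_right ht4 hn0
    have h4 := mul_le_mul_of_nonneg_left h3 (Real.rpow_nonneg hlo.le (1 / p))
    refine le_trans (le_of_eq (by ring)) (h4.trans (le_of_eq (by ring)))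

end Vale.Agent.P249
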