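import Vale.Agent.P249.Ineq

/-! Sparse random signed sums on a finite product space. -/

set_option linter.unusedSectionVars false
set_option linter.unusedSimpArgs false

namespace Vale.Agent.P249

open Finset

/-- Probability of a sign: zero with probability `1 - q`, each nonzero sign with `q / 2`. -/
noncomputable def wt (q : ℝ) (σ : SignType) : ℝ := if σ = 0 then 1 - q else q / 2

/-- Product weight. -/
noncomputable def pw {m : ℕ} (q : Fin m → ℝ) (ω : Fin m → SignType) : ℝ := ∏ i, wt (q i) (ω i)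

/-- Expectation on the product space. -/
noncomputable def Ex {m : ℕ} (q : Fin m → ℝ) (Φ : (Fin m → SignType) → ℝ) : ℝ :=
  ∑ ω, pw q ω * Φ ω

/-- Signed sum. -/
noncomputable def ssum {m : ℕ} (y : Fin m → ℝ) (ω : Fin m → SignType) : ℝ :=
  ∑ i, (ω i : ℝ) * y i

lemma sum_signType (f : SignType → ℝ) : ∑ σ, f σ = f 0 + f 1 + f (-1) := by
  have : (univ : Finset SignType) = {0, 1, -1} := by decide
  rw [this, sum_insert (by decide), sum_insert (by decide), sum_singleton, add_assoc]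

lemma Ex_zero (q : Fin 0 → ℝ) (Φ : (Fin 0 → SignType) → ℝ) : Ex q Φ = Φ default := by
  unfold Ex pw
  simp only [univ_unique, univ_eq_empty, prod_empty, one_mul, sum_singleton]
  exact congrArg Φ (Subsingleton.elim _ _)

lemma Ex_succ {m : ℕ} (q : Fin (m + 1) → ℝ) (Φ : (Fin (m + 1) → SignType) → ℝ) :
    Ex q Φ = Ex (Fin.tail q) (fun ω => (1 - q 0) * Φ (Fin.cons 0 ω) +
      q 0 * ((Φ (Fin.cons 1 ω) + Φ (Fin.cons (-1) ω)) / 2)) := by
  unfold Ex
  rw [← (Fin.consEquiv (fun _ : Fin (m + 1) => SignType)).sum_comp, Fintype.sum_prod_type,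
    sum_comm]
  refine sum_congr rfl fun ω _ => ?_
  rw [sum_signType]
  have h0 : ∀ σ : SignType, (Fin.consEquiv fun _ : Fin (m + 1) => SignType) (σ, ω) =
      Fin.cons σ ω := fun σ => rfl
  simp only [h0, pw, Fin.prod_univ_succ, Fin.cons_zero, Fin.cons_succ, wt,
    Fin.tail]
  have h1 : (1 : SignType) ≠ 0 := by decide
  have h2 : (-1 : SignType) ≠ 0 := by decide
  simp only [if_true, h1, h2, if_false]
  ring

lemma ssum_cons {m : ℕ} (y : Fin (m + 1) → ℝ) (σ : SignType) (ω : Fin m → SignType) :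
    ssum y (Fin.cons σ ω) = ssum (Fin.tail y) ω + σ * y 0 := by
  unfold ssum
  rw [Fin.sum_univ_succ, add_comm]
  simp [Fin.tail]

lemma Ex_ssum_succ {m : ℕ} (q y : Fin (m + 1) → ℝ) (Ψ : ℝ → ℝ) :
    Ex q (fun ω => Ψ (ssum y ω)) = Ex (Fin.tail q) (fun ω =>
      (1 - q 0) * Ψ (ssum (Fin.tail y) ω) +
      q 0 * ((Ψ (ssum (Fin.tail y) ω + y 0) + Ψ (ssum (Fin.tail y) ω - y 0)) / 2)) := by
  rw [Ex_succ]
  simp [ssum_cons, sub_eq_add_neg]

lemma pw_nonneg {m : ℕ} {q : Fin m → ℝ} (hq : ∀ i, 0 ≤ q i ∧ q i ≤ 1) (ω : Fin m → SignType) :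
    0 ≤ pw q ω := by
  refine prod_nonneg fun i _ => ?_
  unfold wt
  split_ifs <;> linarith [(hq i).1, (hq i).2]

lemma Ex_mono {m : ℕ} {q : Fin m → ℝ} (hq : ∀ i, 0 ≤ q i ∧ q i ≤ 1)
    {Φ Ψ : (Fin m → SignType) → ℝ} (h : ∀ ω, Φ ω ≤ Ψ ω) : Ex q Φ ≤ Ex q Ψ :=
  sum_le_sum fun ω _ => mul_le_mul_of_nonneg_left (h ω) (pw_nonneg hq ω)

lemma Ex_add {m : ℕ} (q : Fin m → ℝ) (Φ Ψ : (Fin m → SignType) → ℝ) :
    Ex q (fun ω => Φ ω + Ψ ω) = Ex q Φ + Ex q Ψ := by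
  unfold Ex; simp_rw [mul_add, sum_add_distrib]

lemma Ex_mul {m : ℕ} (q : Fin m → ℝ) (c : ℝ) (Φ : (Fin m → SignType) → ℝ) :
    Ex q (fun ω => c * Φ ω) = c * Ex q Φ := by
  unfold Ex; rw [mul_sum]; refine sum_congr rfl fun ω _ => by ring

lemma Ex_const {m : ℕ} (q : Fin m → ℝ) (c : ℝ) : Ex q (fun _ => c) = c := by
  induction m with
  | zero => rw [Ex_zero]
  | succ m ih =>
    rw [Ex_succ]
    have : (1 - q 0) * c + q 0 * ((c + c) / 2) = c := by ring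
    simp only [this]
    exact ih _

lemma pw_sum {m : ℕ} (q : Fin m → ℝ) : ∑ ω, pw q ω = 1 := by
  have := Ex_const q 1
  unfold Ex at this
  simpa using this

lemma Ex_lin {m : ℕ} (q : Fin m → ℝ) (c₁ c₂ c₃ : ℝ) (Φ Ψ : (Fin m → SignType) → ℝ) :
    Ex q (fun ω => c₁ * Φ ω + c₂ * Ψ ω + c₃) = c₁ * Ex q Φ + c₂ * Ex q Ψ + c₃ := by
  rw [Ex_add, Ex_add, Ex_mul, Ex_mul, Ex_const]

lemma tail_prob {m : ℕ} {q : Fin (m + 1) → ℝ} (hq : ∀ i, 0 ≤ q i ∧ q i ≤ 1) :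
    ∀ i, 0 ≤ Fin.tail q i ∧ Fin.tail q i ≤ 1 := fun i => hq i.succ

/-- Indicator of being nonzero. -/
noncomputable def nz (t : ℝ) : ℝ := if t = 0 then 0 else 1

lemma nz_nonneg (t : ℝ) : 0 ≤ nz t := by unfold nz; split_ifs <;> norm_num

lemma nz_le_one (t : ℝ) : nz t ≤ 1 := by unfold nz; split_ifs <;> norm_num

lemma Ex_nz {m : ℕ} {q : Fin m → ℝ} (hq : ∀ i, 0 ≤ q i ∧ q i ≤ 1) (w : Fin m → ℝ) :
    Ex q (fun ω => nz (ssum w ω)) ≤ ∑ i, q i * nz (w i) := by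
  induction m with
  | zero => simp [Ex_zero, ssum, nz]
  | succ m ih =>
    rw [Ex_ssum_succ q w nz, Fin.sum_univ_succ]
    have h1 := ih (tail_prob hq) (Fin.tail w)
    refine (Ex_mono (tail_prob hq) (Ψ := fun ω => 1 * nz (ssum (Fin.tail w) ω) +
      0 * 0 + q 0 * nz (w 0)) fun ω => ?_).trans ?_
    · by_cases h : w 0 = 0
      · simp only [h, add_zero, sub_zero]
        have := mul_nonneg (hq 0).1 (nz_nonneg 0)
        linarith
      · have h2 : nz (w 0) = 1 := if_neg h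
        have h3 := nz_le_one (ssum (Fin.tail w) ω + w 0)
        have h4 := nz_le_one (ssum (Fin.tail w) ω - w 0)
        have h5 := nz_nonneg (ssum (Fin.tail w) ω)
        have h6 := (hq 0).1
        rw [h2]
        nlinarith
    · rw [Ex_lin (Fin.tail q) 1 0 _ _ (fun _ => 0)]
      simp only [Fin.tail] at h1 ⊢
      linarith

lemma Ex_main_lower {p δ : ℝ} (hp : 1 ≤ p) {m : ℕ} {q : Fin m → ℝ} (hq : ∀ i, 0 ≤ q i ∧ q i ≤ 1)
    (w : Fin m → ℝ) (hδ : ∑ i, q i * nz (w i) ≤ δ) :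
    (1 - δ) * ∑ i, q i * |w i| ^ p ≤ Ex q (fun ω => |ssum w ω| ^ p) := by
  have hp0 : 0 < p := by linarith
  induction m with
  | zero => simp [Ex_zero, ssum, Real.zero_rpow hp0.ne']
  | succ m ih =>
    rw [Ex_ssum_succ q w (fun s => |s| ^ p), Fin.sum_univ_succ]
    rw [Fin.sum_univ_succ] at hδ
    have h0 : 0 ≤ q 0 * nz (w 0) := mul_nonneg (hq 0).1 (nz_nonneg _)
    have hδ' : ∑ i, Fin.tail q i * nz (Fin.tail w i) ≤ δ := by
      simp only [Fin.tail]; linarith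
    have h1 := ih (tail_prob hq) (Fin.tail w) hδ'
    have h2 := (Ex_nz (tail_prob hq) (Fin.tail w)).trans hδ'
    have hm : 0 ≤ q 0 * |w 0| ^ p := mul_nonneg (hq 0).1 (by positivity)
    refine le_trans ?_ (Ex_mono (tail_prob hq) (Φ := fun ω => 1 * |ssum (Fin.tail w) ω| ^ p +
      (-(q 0 * |w 0| ^ p)) * nz (ssum (Fin.tail w) ω) + q 0 * |w 0| ^ p) fun ω => ?_)
    · rw [Ex_lin]
      simp only [Fin.tail] at h1 h2 ⊢
      nlinarith
    · by_cases h : ssum (Fin.tail w) ω = 0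
      · simp [h, nz, Real.zero_rpow hp0.ne']
      · have h3 : nz (ssum (Fin.tail w) ω) = 1 := if_neg h
        have h4 := two_point_lower hp (ssum (Fin.tail w) ω) (w 0)
        have h5 := mul_le_mul_of_nonneg_left h4 (hq 0).1
        rw [h3]
        linarith

lemma Ex_main_upper {p δ : ℝ} (hp : 0 < p) {m : ℕ} {q : Fin m → ℝ} (hq : ∀ i, 0 ≤ q i ∧ q i ≤ 1)
    (w : Fin m → ℝ) (hδ : ∑ i, q i * nz (w i) ≤ δ) :
    Ex q (fun ω => |ssum w ω| ^ p) ≤
      (1 + 2 ^ p * δ) * Real.exp (2 ^ p * ∑ i, q i * nz (w i)) * ∑ i, q i * |w i| ^ p := by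
  induction m with
  | zero => simp [Ex_zero, ssum, Real.zero_rpow hp.ne']
  | succ m ih =>
    rw [Ex_ssum_succ q w (fun s => |s| ^ p), Fin.sum_univ_succ, Fin.sum_univ_succ]
    rw [Fin.sum_univ_succ] at hδ
    have h0 : 0 ≤ q 0 * nz (w 0) := mul_nonneg (hq 0).1 (nz_nonneg _)
    have hδ' : ∑ i, Fin.tail q i * nz (Fin.tail w i) ≤ δ := by
      simp only [Fin.tail]; linarith
    have h1 := ih (tail_prob hq) (Fin.tail w) hδ'
    have h2 := (Ex_nz (tail_prob hq) (Fin.tail w)).trans hδ'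
    have hm : 0 ≤ q 0 * |w 0| ^ p := mul_nonneg (hq 0).1 (by positivity)
    have hc : (0 : ℝ) < 2 ^ p := by positivity
    have hc1 : (1 : ℝ) ≤ 2 ^ p := Real.one_le_rpow (by norm_num) hp.le
    refine (Ex_mono (tail_prob hq) (Ψ := fun ω =>
      (1 + 2 ^ p * (q 0 * nz (w 0))) * |ssum (Fin.tail w) ω| ^ p +
      (2 ^ p * (q 0 * |w 0| ^ p)) * nz (ssum (Fin.tail w) ω) + q 0 * |w 0| ^ p)
      fun ω => ?_).trans ?_
    · set s := ssum (Fin.tail w) ω
      have hs0 : 0 ≤ |s| ^ p := by positivity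
      by_cases h : s = 0
      · simp [h, nz, Real.zero_rpow hp.ne']
      · have h3 : nz s = 1 := if_neg h
        rw [h3]
        by_cases hw : w 0 = 0
        · simp [hw, nz, Real.zero_rpow hp.ne']
          linarith
        · have h4 : nz (w 0) = 1 := if_neg hw
          rw [h4]
          have h5 := abs_add_rpow_le_two hp.le s (w 0)
          have h6 := abs_add_rpow_le_two hp.le s (-w 0)
          rw [abs_neg, ← sub_eq_add_neg] at h6
          have h7 : (|s + w 0| ^ p + |s - w 0| ^ p) / 2 ≤ 2 ^ p * (|s| ^ p + |w 0| ^ p) := by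
            linarith
          have h8 := mul_le_mul_of_nonneg_left h7 (hq 0).1
          have h9 := mul_nonneg (hq 0).1 hs0
          nlinarith
    · rw [Ex_lin]
      simp only [Fin.tail] at h1 h2 ⊢
      set Q := ∑ i : Fin m, q i.succ * nz (w i.succ)
      set M := ∑ i : Fin m, q i.succ * |w i.succ| ^ p
      have hQ : 0 ≤ Q := sum_nonneg fun i _ => mul_nonneg (hq _).1 (nz_nonneg _)
      have hM : 0 ≤ M := sum_nonneg fun i _ => mul_nonneg (hq _).1 (by positivity)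
      have hδ0 : 0 ≤ δ := by linarith
      have e1 : 1 + 2 ^ p * (q 0 * nz (w 0)) ≤ Real.exp (2 ^ p * (q 0 * nz (w 0))) := by
        linarith [Real.add_one_le_exp (2 ^ p * (q 0 * nz (w 0)))]
      have e2 : 1 ≤ Real.exp (2 ^ p * (q 0 * nz (w 0) + Q)) :=
        Real.one_le_exp (by positivity)
      have e3 : Real.exp (2 ^ p * (q 0 * nz (w 0) + Q)) =
          Real.exp (2 ^ p * (q 0 * nz (w 0))) * Real.exp (2 ^ p * Q) := by
        rw [← Real.exp_add]; ring_nf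
      have e4 := mul_le_mul e1 h1 (Ex_mono (tail_prob hq) (Φ := fun _ => 0)
        (fun ω => by positivity) |>.trans_eq' (Ex_const _ 0)) (Real.exp_pos _).le
      have e5 := mul_le_mul_of_nonneg_left h2 (mul_nonneg hc.le hm)
      have e6 : (1 + 2 ^ p * δ) * (q 0 * |w 0| ^ p) ≤
          (1 + 2 ^ p * δ) * Real.exp (2 ^ p * (q 0 * nz (w 0) + Q)) * (q 0 * |w 0| ^ p) :=
        mul_le_mul_of_nonneg_right (le_mul_of_one_le_right (by positivity) e2) hm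
      rw [e3] at e6 ⊢
      nlinarith

lemma Ex_err {p c₁ c₂ : ℝ} (hp : 0 < p) (hc₁ : 0 ≤ c₁) (hc₂ : 0 ≤ c₂)
    (hpt : ∀ s y : ℝ, (|s + y| ^ p + |s - y| ^ p) / 2 ≤
      |s| ^ p + c₁ * ((1 + |s| ^ p) * y ^ 2) + c₂ * |y| ^ p)
    {m : ℕ} {q : Fin m → ℝ} (hq : ∀ i, 0 ≤ q i ∧ q i ≤ 1) (y : Fin m → ℝ) :
    Ex q (fun ω => |ssum y ω| ^ p) + 1 ≤
      Real.exp (c₁ * ∑ i, q i * y i ^ 2) * (1 + c₂ * ∑ i, q i * |y i| ^ p) := by
  induction m with
  | zero => simp [Ex_zero, ssum, Real.zero_rpow hp.ne']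
  | succ m ih =>
    rw [Ex_ssum_succ q y (fun s => |s| ^ p), Fin.sum_univ_succ, Fin.sum_univ_succ]
    have h1 := ih (tail_prob hq) (Fin.tail y)
    have hv : 0 ≤ c₁ * (q 0 * y 0 ^ 2) := mul_nonneg hc₁ (mul_nonneg (hq 0).1 (sq_nonneg _))
    have hm : 0 ≤ c₂ * (q 0 * |y 0| ^ p) := mul_nonneg hc₂ (mul_nonneg (hq 0).1 (by positivity))
    have h2 := Ex_mono (tail_prob hq) (Φ := fun ω =>
      (1 - q 0) * |ssum (Fin.tail y) ω| ^ p +
      q 0 * ((|ssum (Fin.tail y) ω + y 0| ^ p + |ssum (Fin.tail y) ω - y 0| ^ p) / 2))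
      (Ψ := fun ω => (1 + c₁ * (q 0 * y 0 ^ 2)) * |ssum (Fin.tail y) ω| ^ p + 0 * 0 +
        (c₁ * (q 0 * y 0 ^ 2) + c₂ * (q 0 * |y 0| ^ p))) fun ω => by
      have := mul_le_mul_of_nonneg_left (hpt (ssum (Fin.tail y) ω) (y 0)) (hq 0).1
      nlinarith
    rw [Ex_lin (Fin.tail q) _ 0 _ _ (fun _ => 0)] at h2
    simp only [Fin.tail] at h1 h2 ⊢
    set V := ∑ i : Fin m, q i.succ * y i.succ ^ 2
    set M := ∑ i : Fin m, q i.succ * |y i.succ| ^ p
    have hV : 0 ≤ V := sum_nonneg fun i _ => mul_nonneg (hq _).1 (sq_nonneg _)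
    have hM : 0 ≤ M := sum_nonneg fun i _ => mul_nonneg (hq _).1 (by positivity)
    have e1 : 1 + c₁ * (q 0 * y 0 ^ 2) ≤ Real.exp (c₁ * (q 0 * y 0 ^ 2)) := by
      linarith [Real.add_one_le_exp (c₁ * (q 0 * y 0 ^ 2))]
    have e2 : 1 ≤ Real.exp (c₁ * (q 0 * y 0 ^ 2 + V)) :=
      Real.one_le_exp (by nlinarith [mul_nonneg hc₁ hV])
    have e3 : Real.exp (c₁ * (q 0 * y 0 ^ 2 + V)) =
        Real.exp (c₁ * (q 0 * y 0 ^ 2)) * Real.exp (c₁ * V) := by
      rw [← Real.exp_add]; ring_nf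
    have e0 : 0 ≤ Ex (Fin.tail q) (fun ω => |ssum (Fin.tail y) ω| ^ p) :=
      (Ex_mono (tail_prob hq) (Φ := fun _ => 0) (fun ω => by positivity)).trans_eq'
        (Ex_const _ 0)
    have e4 := mul_le_mul e1 h1 (by linarith) (Real.exp_pos _).le
    have e6 : c₂ * (q 0 * |y 0| ^ p) ≤
        Real.exp (c₁ * (q 0 * y 0 ^ 2 + V)) * (c₂ * (q 0 * |y 0| ^ p)) :=
      le_mul_of_one_le_left hm e2
    rw [e3] at e6 ⊢
    nlinarith

lemma Ex_exp {m : ℕ} {q : Fin m → ℝ} (hq : ∀ i, 0 ≤ q i ∧ q i ≤ 1) (y : Fin m → ℝ)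
    (hy : ∀ i, |y i| ≤ 1) :
    Ex q (fun ω => Real.exp (ssum y ω)) ≤ Real.exp (∑ i, q i * y i ^ 2) := by
  induction m with
  | zero => simp [Ex_zero, ssum]
  | succ m ih =>
    rw [Ex_ssum_succ q y Real.exp, Fin.sum_univ_succ]
    have h1 := ih (tail_prob hq) (Fin.tail y) (fun i => hy i.succ)
    have hv : 0 ≤ q 0 * y 0 ^ 2 := mul_nonneg (hq 0).1 (sq_nonneg _)
    refine (Ex_mono (tail_prob hq) (Ψ := fun ω =>
      (1 + q 0 * y 0 ^ 2) * Real.exp (ssum (Fin.tail y) ω)) fun ω => ?_).trans ?_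
    · have h2 := (abs_le.1 (Real.abs_exp_sub_one_sub_id_le (hy 0))).2
      have h3 := (abs_le.1 (Real.abs_exp_sub_one_sub_id_le (x := -y 0)
        (by rw [abs_neg]; exact hy 0))).2
      rw [Real.exp_add, sub_eq_add_neg (ssum _ _), Real.exp_add]
      have h4 : (Real.exp (y 0) + Real.exp (-y 0)) / 2 ≤ 1 + y 0 ^ 2 := by nlinarith
      have h5 := mul_le_mul_of_nonneg_left h4
        (mul_nonneg (hq 0).1 (Real.exp_pos (ssum (Fin.tail y) ω)).le)
      nlinarith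
    · rw [Ex_mul, Real.exp_add]
      simp only [Fin.tail] at h1 ⊢
      refine mul_le_mul (by linarith [Real.add_one_le_exp (q 0 * y 0 ^ 2)]) h1 ?_
        (Real.exp_pos _).le
      exact (Ex_mono (tail_prob hq) (Φ := fun _ => 0) (fun ω => (Real.exp_pos _).le)).trans_eq'
        (Ex_const _ 0)

end Vale.Agent.P249
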