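import Vale.Agent.P249.Signs

/-! Smooth windows on a logarithmic scale. -/

set_option linter.unusedSectionVars false
set_option linter.unusedSimpArgs false

namespace Vale.Agent.P249

open Finset

/-- Integer trapezoid. -/
def phiZ (m L : ℕ) (i : ℤ) : ℤ := max 0 (min (min (i - m) (m + 3 * L - i)) L)

/-- Normalised trapezoid. -/
noncomputable def phi (m L : ℕ) (i : ℤ) : ℝ := (phiZ m L i : ℝ) / L

/-- Increments of the trapezoid. -/
noncomputable def psi (m L : ℕ) (i : ℤ) : ℝ := phi m L (i + 1) - phi m L i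

/-- Indicator of exceeding the dyadic threshold. -/
noncomputable def chi (k : ℕ) (y : ℝ) : ℝ := if tau k < |y| then 1 else 0

/-- The window at level `l`. -/
noncomputable def win (m L N l : ℕ) (y : ℝ) : ℝ :=
  (tau l)⁻¹ * ∑ k ∈ range N, psi m L ((l : ℤ) - k) * (y * chi k y)

/-- Total mass of the window. -/
noncomputable def mass (p : ℝ) (m L : ℕ) : ℝ := ∑ i ∈ range (m + 3 * L), phi m L i ^ p

lemma phi_nonneg (m L : ℕ) (i : ℤ) : 0 ≤ phi m L i := by
  unfold phi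
  have : 0 ≤ phiZ m L i := le_max_left _ _
  exact div_nonneg (by exact_mod_cast this) (Nat.cast_nonneg L)

lemma phi_le_one (m L : ℕ) (i : ℤ) : phi m L i ≤ 1 := by
  unfold phi
  have : phiZ m L i ≤ L := by unfold phiZ; omega
  exact div_le_one_of_le₀ (by exact_mod_cast this) (Nat.cast_nonneg L)

lemma phi_low {m L : ℕ} {i : ℤ} (h : i ≤ m) : phi m L i = 0 := by
  unfold phi
  have : phiZ m L i = 0 := by unfold phiZ; omega
  simp [this]

lemma phi_high {m L : ℕ} {i : ℤ} (h : m + 3 * L ≤ i) : phi m L i = 0 := by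
  unfold phi
  have : phiZ m L i = 0 := by unfold phiZ; omega
  simp [this]

lemma phi_mid {m L : ℕ} (hL : 1 ≤ L) {i : ℤ} (h1 : m + L ≤ i) (h2 : i ≤ m + 2 * L) :
    phi m L i = 1 := by
  unfold phi
  have : phiZ m L i = L := by unfold phiZ; omega
  rw [this]
  have : (L : ℝ) ≠ 0 := by positivity
  simp [this]

lemma abs_psi_le {m L : ℕ} (hL : 1 ≤ L) (i : ℤ) :
    |psi m L i| ≤ (1 / L) * (if (m : ℤ) ≤ i ∧ i < m + 3 * L then 1 else 0) := by
  have hL0 : (0 : ℝ) < L := by positivity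
  unfold psi phi
  rw [← sub_div, abs_div, abs_of_pos hL0, one_div_mul_eq_div]
  refine div_le_div_of_nonneg_right ?_ hL0.le
  have : |phiZ m L (i + 1) - phiZ m L i| ≤ if (m : ℤ) ≤ i ∧ i < m + 3 * L then 1 else 0 := by
    rw [abs_le]
    unfold phiZ
    split_ifs <;> constructor <;> omega
  exact_mod_cast this

lemma mass_ge {p : ℝ} {m L : ℕ} (hL : 1 ≤ L) : (L : ℝ) ≤ mass p m L := by
  unfold mass
  have h1 : Ico (m + L) (m + 2 * L) ⊆ range (m + 3 * L) := by
    intro i hi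
    simp only [mem_Ico, mem_range] at hi ⊢
    omega
  refine le_trans (le_of_eq ?_) (sum_le_sum_of_subset_of_nonneg h1
    fun i _ _ => Real.rpow_nonneg (phi_nonneg _ _ _) _)
  rw [sum_congr rfl (g := fun _ => (1 : ℝ))]
  · simp
    omega
  · intro i hi
    simp only [mem_Ico] at hi
    rw [phi_mid hL (by omega) (by omega), Real.one_rpow]

lemma tau_anti {k l : ℕ} (h : k ≤ l) : tau l ≤ tau k :=
  pow_le_pow_of_le_one (by norm_num) (by norm_num) h

lemma tau_add (k l : ℕ) : tau (k + l) = tau k * tau l := pow_add _ _ _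

lemma tau_le_one (k : ℕ) : tau k ≤ 1 := pow_le_one₀ (by norm_num) (by norm_num)

lemma exists_level {y : ℝ} (h0 : y ≠ 0) (h1 : |y| ≤ 1) :
    ∃ κ : ℕ, tau (κ + 1) < |y| ∧ |y| ≤ tau κ :=
  exists_nat_pow_near_of_lt_one (abs_pos.2 h0) h1 (by norm_num) (by norm_num)

lemma win_eq {m L N l κ : ℕ} {y : ℝ} (hκ : tau (κ + 1) < |y| ∧ |y| ≤ tau κ) (hl : l < N) :
    win m L N l y = (tau l)⁻¹ * y * phi m L ((l : ℤ) - κ) := by
  unfold win
  rw [mul_assoc]
  congr 1
  set f : ℕ → ℝ := fun k => phi m L ((l : ℤ) - max (k : ℤ) (κ + 1) + 1) with hf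
  have h1 : ∀ k ∈ range N, psi m L ((l : ℤ) - k) * (y * chi k y) = y * (f k - f (k + 1)) := by
    intro k _
    unfold chi psi
    simp only [hf]
    by_cases h : κ + 1 ≤ k
    · rw [if_pos ((tau_anti h).trans_lt hκ.1), max_eq_left (by omega),
        max_eq_left (by push_cast; omega)]
      push_cast
      rw [show (l : ℤ) - (k + 1) + 1 = l - k by ring]
      ring
    · rw [if_neg (not_lt.2 (hκ.2.trans (tau_anti (by omega)))), max_eq_right (by omega),
        max_eq_right (by push_cast; omega)]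
      ring
  rw [sum_congr rfl h1, ← mul_sum, sum_range_sub']
  simp only [hf]
  rw [phi_low (i := (l : ℤ) - max (N : ℤ) (κ + 1) + 1) (by omega), max_eq_right (by omega)]
  rw [show (l : ℤ) - (κ + 1) + 1 = l - κ by ring, sub_zero]

lemma win_zero (m L N l : ℕ) : win m L N l 0 = 0 := by simp [win]

lemma win_mass {p : ℝ} (hp : 0 < p) {m L K : ℕ} {y : ℝ} (h1 : |y| ≤ 1)
    (hK : y ≠ 0 → tau K < |y|) :
    ∑ l ∈ range (K + (m + 3 * L)), tau l ^ p * |win m L (K + (m + 3 * L)) l y| ^ p =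
      |y| ^ p * mass p m L := by
  rcases eq_or_ne y 0 with rfl | h0
  · simp [win_zero, Real.zero_rpow hp.ne']
  obtain ⟨κ, hκ⟩ := exists_level h0 h1
  have hκK : κ ≤ K := by
    by_contra h
    exact absurd ((hK h0).trans_le (hκ.2.trans (tau_anti (by omega)))) (lt_irrefl _)
  have h2 : ∀ l ∈ range (K + (m + 3 * L)), tau l ^ p * |win m L (K + (m + 3 * L)) l y| ^ p =
      |y| ^ p * phi m L ((l : ℤ) - κ) ^ p := by
    intro l hl
    rw [win_eq hκ (mem_range.1 hl), ← Real.mul_rpow (tau_pos l).le (abs_nonneg _),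
      ← Real.mul_rpow (abs_nonneg _) (phi_nonneg _ _ _), abs_mul, abs_mul,
      abs_of_nonneg (phi_nonneg _ _ _), abs_inv, abs_of_pos (tau_pos l)]
    congr 1
    field_simp [(tau_pos l).ne']
  rw [sum_congr rfl h2, ← mul_sum]
  congr 1
  obtain ⟨t, rfl⟩ := Nat.exists_eq_add_of_le hκK
  rw [show κ + t + (m + 3 * L) = κ + (m + 3 * L) + t by ring, sum_range_add, sum_range_add,
    sum_eq_zero, sum_eq_zero (s := range t)]
  · unfold mass
    simp
  · intro i _
    rw [phi_high (by push_cast; omega), Real.zero_rpow hp.ne']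
  · intro i hi
    rw [phi_low (by have := mem_range.1 hi; omega), Real.zero_rpow hp.ne']

lemma win_support {m L N l : ℕ} {y : ℝ} (h1 : |y| ≤ 1) (hl : l < N) (h : win m L N l y ≠ 0) :
    tau l ≤ tau m * |y| := by
  rcases eq_or_ne y 0 with rfl | h0
  · exact absurd (win_zero _ _ _ _) h
  obtain ⟨κ, hκ⟩ := exists_level h0 h1
  rw [win_eq hκ hl] at h
  have h2 : ¬ ((l : ℤ) - κ ≤ m) := fun h3 => h (by rw [phi_low h3, mul_zero])
  calc tau l ≤ tau (m + (κ + 1)) := tau_anti (by omega)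
    _ = tau m * tau (κ + 1) := tau_add _ _
    _ ≤ _ := mul_le_mul_of_nonneg_left hκ.1.le (tau_pos m).le

lemma abs_win_le_self {m L N l : ℕ} {y : ℝ} (h1 : |y| ≤ 1) (hl : l < N) :
    |win m L N l y| ≤ (tau l)⁻¹ * |y| := by
  rcases eq_or_ne y 0 with rfl | h0
  · simp [win_zero]
  obtain ⟨κ, hκ⟩ := exists_level h0 h1
  rw [win_eq hκ hl, abs_mul, abs_mul, abs_of_nonneg (phi_nonneg _ _ _), abs_inv,
    abs_of_pos (tau_pos l)]
  exact mul_le_of_le_one_right (mul_nonneg (inv_pos.2 (tau_pos l)).le (abs_nonneg _))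
    (phi_le_one _ _ _)

lemma abs_win_le {m L N l : ℕ} {y : ℝ} (h1 : |y| ≤ 1) (hl : l < N) :
    |win m L N l y| ≤ (tau (m + 3 * L))⁻¹ := by
  have hpos := (inv_pos.2 (tau_pos (m + 3 * L))).le
  rcases eq_or_ne y 0 with rfl | h0
  · simpa [win_zero] using (tau_pos _).le
  obtain ⟨κ, hκ⟩ := exists_level h0 h1
  by_cases h2 : (m : ℤ) + 3 * L ≤ (l : ℤ) - κ
  · rw [win_eq hκ hl, phi_high h2]
    simpa using (tau_pos _).le
  · refine (abs_win_le_self h1 hl).trans ?_
    rw [inv_mul_le_iff₀ (tau_pos l), le_mul_inv_iff₀ (tau_pos _)]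
    calc |y| * tau (m + 3 * L) ≤ tau κ * tau (m + 3 * L) :=
          mul_le_mul_of_nonneg_right hκ.2 (tau_pos _).le
      _ = tau (κ + (m + 3 * L)) := (tau_add _ _).symm
      _ ≤ tau l := tau_anti (by omega)

lemma win_sparse {p : ℝ} (hp : 0 < p) {m L N : ℕ} {y : ℝ} (h1 : |y| ≤ 1) :
    ∑ l ∈ range N, tau l ^ p * nz (win m L N l y) ≤ gc p * tau m ^ p * |y| ^ p := by
  have h := sum_tau_down hp (mul_nonneg (tau_pos m).le (abs_nonneg y)) N
  rw [Real.mul_rpow (tau_pos m).le (abs_nonneg y), ← mul_assoc] at h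
  refine le_trans (sum_le_sum fun l hl => ?_) h
  unfold nz
  split_ifs with h2 h3 h3
  · rw [mul_zero]; exact Real.rpow_nonneg (tau_pos l).le _
  · rw [mul_zero]
  · rw [mul_one]
  · exact absurd (win_support h1 (mem_range.1 hl) h2) h3

lemma sq_mul_abs_rpow {p : ℝ} (hp : 0 < p) (y : ℝ) : y ^ 2 * |y| ^ (p - 2) = |y| ^ p := by
  rcases eq_or_ne y 0 with rfl | h0
  · simp [Real.zero_rpow hp.ne']
  · rw [Real.rpow_sub (abs_pos.2 h0), ← sq_abs y]
    have := abs_pos.2 h0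
    norm_cast
    field_simp

lemma win_sq_mass {p : ℝ} (hp : 2 < p) {m L N : ℕ} {y : ℝ} (h1 : |y| ≤ 1) :
    ∑ l ∈ range N, tau l ^ p * win m L N l y ^ 2 ≤ gc (p - 2) * |y| ^ p := by
  have h := mul_le_mul_of_nonneg_left (sum_tau_down (by linarith : 0 < p - 2) (abs_nonneg y) N)
    (sq_nonneg y)
  rw [mul_left_comm, sq_mul_abs_rpow (by linarith), mul_sum] at h
  refine le_trans (sum_le_sum fun l hl => ?_) h
  have ht := tau_pos l
  by_cases h2 : win m L N l y = 0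
  · rw [h2]
    split_ifs
    · simp only [ne_eq, OfNat.ofNat_ne_zero, not_false_eq_true, zero_pow, mul_zero]
      positivity
    · simp
  · have h3 : tau l ≤ |y| := (win_support h1 (mem_range.1 hl) h2).trans
      (mul_le_of_le_one_left (abs_nonneg y) (tau_le_one m))
    rw [if_pos h3]
    have h4 : win m L N l y ^ 2 ≤ ((tau l)⁻¹ * |y|) ^ 2 := by
      rw [← sq_abs]
      exact pow_le_pow_left₀ (abs_nonneg _) (abs_win_le_self h1 (mem_range.1 hl)) 2
    refine (mul_le_mul_of_nonneg_left h4 (Real.rpow_nonneg ht.le _)).trans (le_of_eq ?_)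
    rw [Real.rpow_sub ht, mul_pow, sq_abs]
    norm_cast
    field_simp

/-- Discrete Young inequality for the increments of the trapezoid. -/
lemma young {p : ℝ} (hp : 1 ≤ p) {m L N : ℕ} (hL : 1 ≤ L) (G : ℕ → ℝ) :
    ∑ l ∈ range N, |∑ k ∈ range N, psi m L ((l : ℤ) - k) * G k| ^ p ≤
      3 * (L * (1 / L) ^ p) * (∑ k ∈ range N, |G k|) ^ p := by
  have hp0 : 0 < p := by linarith
  set H := ∑ k ∈ range N, |G k| with hH
  set A : ℕ → ℝ := fun l => ∑ k ∈ range N,
    (if (m : ℤ) ≤ (l : ℤ) - k ∧ (l : ℤ) - k < m + 3 * L then 1 else 0) * |G k| with hA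
  have hH0 : 0 ≤ H := sum_nonneg fun k _ => abs_nonneg _
  have hA0 : ∀ l, 0 ≤ A l := fun l => sum_nonneg fun k _ =>
    mul_nonneg (by split_ifs <;> norm_num) (abs_nonneg _)
  have hA1 : ∀ l, A l ≤ H := fun l => sum_le_sum fun k _ =>
    mul_le_of_le_one_left (abs_nonneg _) (by split_ifs <;> norm_num)
  have hL0 : (0 : ℝ) < L := by positivity
  have h1 : ∀ l : ℕ, |∑ k ∈ range N, psi m L ((l : ℤ) - k) * G k| ^ p ≤
      (1 / L) ^ p * H ^ (p - 1) * A l := by
    intro l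
    have h2 : |∑ k ∈ range N, psi m L ((l : ℤ) - k) * G k| ≤ (1 / L) * A l := by
      refine (abs_sum_le_sum_abs _ _).trans ?_
      rw [hA, mul_sum]
      refine sum_le_sum fun k _ => ?_
      rw [abs_mul, ← mul_assoc]
      exact mul_le_mul_of_nonneg_right (abs_psi_le hL _) (abs_nonneg _)
    refine (Real.rpow_le_rpow (abs_nonneg _) h2 hp0.le).trans ?_
    rw [Real.mul_rpow (by positivity) (hA0 l), mul_assoc]
    refine mul_le_mul_of_nonneg_left ?_ (by positivity)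
    have h3 : A l ^ p = A l ^ (p - 1) * A l := by
      rw [← Real.rpow_add_one' (hA0 l) (by linarith)]
      ring_nf
    rw [h3]
    exact mul_le_mul_of_nonneg_right (Real.rpow_le_rpow (hA0 l) (hA1 l) (by linarith)) (hA0 l)
  have h4 : ∑ l ∈ range N, A l ≤ 3 * L * H := by
    simp only [hA]
    rw [sum_comm, hH, mul_sum]
    refine sum_le_sum fun k _ => ?_
    rw [← sum_mul]
    refine mul_le_mul_of_nonneg_right ?_ (abs_nonneg _)
    rw [sum_boole]
    have : (range N).filter (fun l : ℕ => (m : ℤ) ≤ (l : ℤ) - k ∧ (l : ℤ) - k < m + 3 * L) ⊆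
        Ico (k + m) (k + m + 3 * L) := by
      intro l hl
      simp only [mem_filter, mem_Ico] at hl ⊢
      omega
    have h5 := card_le_card this
    rw [Nat.card_Ico, show k + m + 3 * L - (k + m) = 3 * L by omega] at h5
    exact_mod_cast h5
  refine (sum_le_sum fun l _ => h1 l).trans ?_
  rw [← mul_sum]
  refine (mul_le_mul_of_nonneg_left h4 (by positivity)).trans (le_of_eq ?_)
  have h3 : H ^ p = H ^ (p - 1) * H := by
    rw [← Real.rpow_add_one' hH0 (by linarith)]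
    ring_nf
  rw [h3]
  ring

lemma le_sqrt_mul {N : ℕ} (x : ℕ → ℝ) (β : ℝ) {k : ℕ} (hk : k ∈ range N) :
    x k ≤ Real.sqrt (∑ k ∈ range N, tau k ^ (2 * β) * x k ^ 2) * tau k ^ (-β) := by
  have ht := tau_pos k
  have h1 : tau k ^ (2 * β) * x k ^ 2 ≤ ∑ k ∈ range N, tau k ^ (2 * β) * x k ^ 2 :=
    single_le_sum (f := fun k => tau k ^ (2 * β) * x k ^ 2)
      (fun k _ => mul_nonneg (Real.rpow_nonneg (tau_pos k).le _) (sq_nonneg _)) hk
  have h2 : tau k ^ β * x k ≤ Real.sqrt (∑ k ∈ range N, tau k ^ (2 * β) * x k ^ 2) := by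
    refine Real.le_sqrt_of_sq_le (le_trans (le_of_eq ?_) h1)
    rw [mul_pow, mul_comm 2 β, Real.rpow_mul ht.le]
    norm_cast
  rw [Real.rpow_neg ht.le, ← div_eq_mul_inv, le_div_iff₀ (Real.rpow_pos_of_pos ht _)]
  linarith

lemma H_large {p ρ : ℝ} (hp : 2 < p) (hρ : 0 < ρ) (N : ℕ) (x : ℕ → ℝ) (hx0 : ∀ k, 0 ≤ x k)
    (hx : ∀ k, x k ≤ ρ * tau k) :
    (∑ k ∈ range N, x k) ^ p ≤ (gc 1 + gc ((p - 2) / 2)) ^ p *
      (ρ ^ (p - 2) * ∑ k ∈ range N, tau k ^ (p - 2) * x k ^ 2) := by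
  have hp0 : 0 < p := by linarith
  set Q := ∑ k ∈ range N, tau k ^ (p - 2) * x k ^ 2 with hQ
  have hγ : 0 < (p - 2) / 2 := by linarith
  have hc : 0 < gc 1 + gc ((p - 2) / 2) := add_pos (gc_pos one_pos) (gc_pos hγ)
  have hQ0 : 0 ≤ Q := sum_nonneg fun k _ =>
    mul_nonneg (Real.rpow_nonneg (tau_pos k).le _) (sq_nonneg _)
  have hH0 : 0 ≤ ∑ k ∈ range N, x k := sum_nonneg fun k _ => hx0 k
  have h2 : ∀ k ∈ range N, x k ≤ Real.sqrt Q * tau k ^ (-((p - 2) / 2)) := by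
    intro k hk
    have := le_sqrt_mul x ((p - 2) / 2) hk
    rwa [show 2 * ((p - 2) / 2) = p - 2 by ring] at this
  rcases hQ0.eq_or_lt with hQ1 | hQ1
  · have : ∑ k ∈ range N, x k = 0 := by
      refine le_antisymm (sum_nonpos fun k hk => ?_) hH0
      simpa [← hQ1] using h2 k hk
    rw [this, ← hQ1, Real.zero_rpow hp0.ne']
    simp
  set M := ρ ^ (p - 2) * Q with hM
  have hM0 : 0 < M := by positivity
  set T := M ^ (1 / p) with hT
  have hT0 : 0 < T := by positivity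
  have hTp : T ^ p = M := by
    rw [hT, ← Real.rpow_mul hM0.le, one_div_mul_cancel hp0.ne', Real.rpow_one]
  have h3 := sum_two_sided one_pos hγ (div_pos hT0 hρ) hρ.le (Real.sqrt_nonneg Q) x N
    (fun k _ => by rw [Real.rpow_one]; exact hx k) h2
  have h4 : ρ * (T / ρ) ^ (1 : ℝ) = T := by rw [Real.rpow_one]; field_simp
  have h5 : Real.sqrt Q * (T / ρ) ^ (-((p - 2) / 2)) ≤ T := by
    rw [Real.rpow_neg (div_pos hT0 hρ).le, ← div_eq_mul_inv, div_le_iff₀ (by positivity)]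
    refine Real.sqrt_le_iff.2 ⟨by positivity, le_of_eq ?_⟩
    rw [mul_pow, ← Real.rpow_natCast ((T / ρ) ^ ((p - 2) / 2)), ← Real.rpow_mul (by positivity),
      Real.div_rpow hT0.le hρ.le]
    push_cast
    rw [show (p - 2) / 2 * 2 = p - 2 by ring, ← mul_div_assoc, ← abs_of_pos hT0, sq_abs,
      sq_mul_abs_rpow hp0, abs_of_pos hT0, hTp, hM]
    field_simp
  have h6 : ∑ k ∈ range N, x k ≤ (gc 1 + gc ((p - 2) / 2)) * T := by
    have := mul_le_mul_of_nonneg_left h5 (gc_pos hγ).le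
    rw [h4] at h3
    linarith
  refine (Real.rpow_le_rpow hH0 h6 hp0.le).trans (le_of_eq ?_)
  rw [Real.mul_rpow hc.le hT0.le, hTp]

lemma H_small {p ρ : ℝ} (hp : 1 < p) (hp2 : p < 2) (hρ : 0 < ρ) (N : ℕ) (x : ℕ → ℝ)
    (hx0 : ∀ k, 0 ≤ x k) :
    (∑ k ∈ range N, x k) ^ p ≤ (gc ((2 - p) / 2) + gc (p - 1)) ^ p *
      (ρ ^ (2 - p) * ∑ k ∈ range N, tau k ^ (-(2 - p)) * x k ^ 2 +
        ρ ^ (1 - p) * ∑ k ∈ range N, tau k ^ (p - 1) * x k) := by
  have hp0 : 0 < p := by linarith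
  set Q := ∑ k ∈ range N, tau k ^ (-(2 - p)) * x k ^ 2 with hQ
  set R := ∑ k ∈ range N, tau k ^ (p - 1) * x k with hR
  have hα : 0 < (2 - p) / 2 := by linarith
  have hγ : 0 < p - 1 := by linarith
  have hc : 0 < gc ((2 - p) / 2) + gc (p - 1) := add_pos (gc_pos hα) (gc_pos hγ)
  have hQ0 : 0 ≤ Q := sum_nonneg fun k _ =>
    mul_nonneg (Real.rpow_nonneg (tau_pos k).le _) (sq_nonneg _)
  have hR0 : 0 ≤ R := sum_nonneg fun k _ =>
    mul_nonneg (Real.rpow_nonneg (tau_pos k).le _) (hx0 k)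
  have hH0 : 0 ≤ ∑ k ∈ range N, x k := sum_nonneg fun k _ => hx0 k
  have h1 : ∀ k ∈ range N, x k ≤ Real.sqrt Q * tau k ^ ((2 - p) / 2) := by
    intro k hk
    have := le_sqrt_mul x (-((2 - p) / 2)) hk
    rwa [show 2 * (-((2 - p) / 2)) = -(2 - p) by ring, neg_neg] at this
  have h2 : ∀ k ∈ range N, x k ≤ R * tau k ^ (-(p - 1)) := by
    intro k hk
    have ht := tau_pos k
    have : tau k ^ (p - 1) * x k ≤ R := single_le_sum (f := fun k => tau k ^ (p - 1) * x k)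
      (fun k _ => mul_nonneg (Real.rpow_nonneg (tau_pos k).le _) (hx0 k)) hk
    rw [Real.rpow_neg ht.le, ← div_eq_mul_inv, le_div_iff₀ (Real.rpow_pos_of_pos ht _)]
    linarith
  rcases hQ0.eq_or_lt with hQ1 | hQ1
  · have : ∑ k ∈ range N, x k = 0 := by
      refine le_antisymm (sum_nonpos fun k hk => ?_) hH0
      simpa [← hQ1] using h1 k hk
    rw [this, Real.zero_rpow hp0.ne']
    positivity
  set M := ρ ^ (2 - p) * Q + ρ ^ (1 - p) * R with hM
  have hM0 : 0 < M := by positivity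
  set T := M ^ (1 / p) with hT
  have hT0 : 0 < T := by positivity
  have hTp : T ^ p = M := by
    rw [hT, ← Real.rpow_mul hM0.le, one_div_mul_cancel hp0.ne', Real.rpow_one]
  have h3 := sum_two_sided hα hγ (mul_pos hρ hT0) (Real.sqrt_nonneg Q) hR0 x N h1 h2
  have h4 : R * (ρ * T) ^ (-(p - 1)) ≤ T := by
    rw [Real.mul_rpow hρ.le hT0.le, show -(p - 1) = 1 - p by ring, ← mul_assoc]
    have h7 : R * ρ ^ (1 - p) ≤ T ^ p := by
      rw [hTp, hM]
      have : 0 ≤ ρ ^ (2 - p) * Q := by positivity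
      linarith
    refine (mul_le_mul_of_nonneg_right h7 (by positivity)).trans (le_of_eq ?_)
    rw [← Real.rpow_add hT0]
    simp
  have h5 : Real.sqrt Q * (ρ * T) ^ ((2 - p) / 2) ≤ T := by
    rw [← le_div_iff₀ (by positivity)]
    refine Real.sqrt_le_iff.2 ⟨by positivity, ?_⟩
    rw [div_pow, ← Real.rpow_natCast ((ρ * T) ^ ((2 - p) / 2)), ← Real.rpow_mul (by positivity),
      Real.mul_rpow hρ.le hT0.le]
    push_cast
    rw [show (2 - p) / 2 * 2 = 2 - p by ring, le_div_iff₀ (by positivity), ← mul_assoc]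
    have h7 : Q * ρ ^ (2 - p) ≤ T ^ p := by
      rw [hTp, hM]
      have : 0 ≤ ρ ^ (1 - p) * R := by positivity
      linarith
    refine (mul_le_mul_of_nonneg_right h7 (by positivity)).trans (le_of_eq ?_)
    rw [← Real.rpow_add hT0]
    simp
  have h6 : ∑ k ∈ range N, x k ≤ (gc ((2 - p) / 2) + gc (p - 1)) * T := by
    have := mul_le_mul_of_nonneg_left h5 (gc_pos hα).le
    have := mul_le_mul_of_nonneg_left h4 (gc_pos hγ).le
    linarith
  refine (Real.rpow_le_rpow hH0 h6 hp0.le).trans (le_of_eq ?_)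
  rw [Real.mul_rpow hc.le hT0.le, hTp]

end Vale.Agent.P249
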